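import Crest.Agent.H0536.Main
import Crest.Prelude.Def_NonlocalGame

set_option autoImplicit false
set_option linter.unusedSectionVars false
open Finset Matrix Function Crest.MathPhysics.NonlocalGame
open scoped ComplexOrder Nat Kronecker

namespace Crest.Agent.H0536

noncomputable section
open Classical

lemma kron_ev {m n : Type} [Fintype m] [Fintype n] (ψ : m × n → ℂ) (M : Matrix m m ℂ) (N : Matrix n n ℂ) :
    (star ψ ⬝ᵥ (M ⊗ₖ N) *ᵥ ψ).re = ev (of (curry ψ)) M Nᵀ := by
  simp only [ev, rt, trace, Matrix.diag_apply, dotProduct, mulVec, Matrix.mul_apply, Fintype.sum_prod_type, mul_sum, sum_mul,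
    kroneckerMap_apply, conjTranspose_apply, of_apply, transpose_apply, Pi.star_apply, curry]
  congr 1
  rw [sum_comm]
  refine sum_congr rfl fun j _ => ?_
  rw [sum_comm, sum_congr rfl fun _ _ => sum_comm, sum_comm]
  exact sum_congr rfl fun _ _ => sum_congr rfl fun _ _ => sum_congr rfl fun _ _ => by ring

lemma ev_subm {m n m' n' : Type} [Fintype m] [Fintype n] [Fintype m'] [Fintype n'] (e : m' ≃ m) (e' : n' ≃ n)
    (K : Matrix m n ℂ) (M : Matrix m m ℂ) (N : Matrix n n ℂ) :
    ev (K.submatrix e e') (M.submatrix e e) (N.submatrix e' e') = ev K M N := by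
  simp only [ev, rt, conjTranspose_submatrix, submatrix_mul_equiv, trace, Matrix.diag_apply, submatrix_apply]
  rw [e'.sum_comp fun i => (Kᴴ * M * K * N) i i]

lemma sum_one {T E : Type} [Fintype T] [AddCommMonoid E] (f : T → E) :
    ∑ a : Fin 1 → T, f (a default) = ∑ a, f a := (Equiv.funUnique (Fin 1) T).sum_comp f

lemma ext_meas {Z X A α : Type} [Fintype A] [Nonempty A] [Fintype α] [DecidableEq α] {π : Z → X}
    {M : Z → A → Matrix α α ℂ} (h : IsM π M) : ∃ P : X → A → Matrix α α ℂ, (∀ x a, (P x a).PosSemidef) ∧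
      (∀ x, ∑ a, P x a = 1) ∧ ∀ z a, (P (π z) a - M z a).PosSemidef := by
  obtain ⟨a0⟩ := ‹Nonempty A›
  have : ∀ x, ∃ Q : A → Matrix α α ℂ, (∀ a, (Q a).PosSemidef) ∧ (1 - ∑ a, Q a).PosSemidef ∧
      ∀ z, π z = x → Q = M z := fun x => by
    by_cases c : ∃ z, π z = x
    · obtain ⟨z, rfl⟩ := c
      exact ⟨M z, h.psd z, h.sub z, fun z' e => h.dep _ _ e.symm⟩
    · exact ⟨fun _ => 0, fun _ => PosSemidef.zero, by simpa using PosSemidef.one, fun z e => (c ⟨z, e⟩).elim⟩
  choose Q q1 q2 q3 using this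
  have d : ∀ x a, (if a = a0 then 1 - ∑ a, Q x a else 0).PosSemidef := fun x a => by
    split_ifs; exacts [q2 x, PosSemidef.zero]
  exact ⟨fun x a => Q x a + if a = a0 then 1 - ∑ a, Q x a else 0, fun x a => (q1 x a).add (d x a),
    fun x => by simp [sum_add_distrib], fun z a => by simpa [← q3 _ z rfl] using d _ a⟩

variable (G : Game)

abbrev Zs : Type := {z : Fin G.nX × Fin G.nY // 0 < G.prob z.1 z.2}

def toG : Gm (Zs G) (Fin G.nX) (Fin G.nY) (Fin G.nA) (Fin G.nB) where
  μ z := G.prob z.1.1 z.1.2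
  px z := z.1.1
  py z := z.1.2
  acc z := G.accept z.1.1 z.1.2
  pos z := z.2
  sum := by
    rw [← G.prob_sum, ← Fintype.sum_prod_type']
    exact Fintype.sum_of_injective _ Subtype.val_injective _ _
      (fun z h => (G.prob_nonneg _ _).antisymm' (not_lt.1 fun c => h ⟨⟨z, c⟩, rfl⟩)) fun _ => rfl

variable {G} {k dA dB : ℕ} (S : Strategy G k dA dB)

lemma prob_eq (t : ℝ) : S.probWinsAtLeast t = Ex (toG G) (of (curry S.ψ))
    (fun w => S.M fun i => (w i).1.1) (fun w b => (S.N (fun i => (w i).1.2) b)ᵀ)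
    fun w a b => if t ≤ #{l | (toG G).acc (w l) (a l) (b l)} then 1 else 0 := by
  rw [Strategy.probWinsAtLeast, ← Fintype.sum_prod_type']
  refine (Fintype.sum_of_injective (fun w : Fin k → Zs G => (fun i => (w i).1.1, fun i => (w i).1.2))
    (fun w w' e => funext fun i => Subtype.ext (Prod.ext (congrFun (congrArg Prod.fst e) i)
      (congrFun (congrArg Prod.snd e) i))) _ _ (fun p h => ?_) fun w => ?_).symm
  · obtain ⟨i, c⟩ := not_forall.1 fun c : ∀ i, 0 < G.prob (p.1 i) (p.2 i) => h ⟨fun i => ⟨(_, _), c i⟩, rfl⟩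
    rw [prod_eq_zero (mem_univ i) ((G.prob_nonneg _ _).antisymm' (not_lt.1 c)), zero_mul]
  · simp only [Strategy.answerProb, kron_ev, ite_mul, one_mul, zero_mul]
    rfl

lemma hv_of [Nonempty (Fin G.nA)] [Nonempty (Fin G.nB)] {v : ℝ}
    (hv : ∀ (dA dB : ℕ) (S : Strategy G 1 dA dB), S.probWinsAtLeast 1 ≤ v) : HV (toG G) v := by
  intro α β _ _ _ _ K M N hM hN
  obtain ⟨P, p1, p2, p3⟩ := ext_meas hM
  obtain ⟨Q, q1, q2, q3⟩ := ext_meas hN
  rcases (nq_nonneg K).eq_or_lt with c | c
  · simp [nq_eq_zero c.symm, val, ev, nq, rt]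
  let e := (Fintype.equivFin α).symm
  let e' := (Fintype.equivFin β).symm
  have c2 : (√(nq K))⁻¹ ^ 2 = (nq K)⁻¹ := by rw [inv_pow, Real.sq_sqrt c.le]
  have := hv _ _ ⟨uncurry (((√(nq K))⁻¹ • K).submatrix e e'), by
      rw [Fintype.sum_prod_type]
      refine (nq_eq (((√(nq K))⁻¹ • K).submatrix e e')).symm.trans ?_
      rw [← ev_one, ← submatrix_one_equiv e, ← submatrix_one_equiv e', ev_subm, ev_one, nq_smul, c2,
        inv_mul_cancel₀ c.ne'],
    fun x a => (P (x default) (a default)).submatrix e e,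
    fun x a => ((Q (x default) (a default)).submatrix e' e')ᵀ, fun _ _ => (p1 _ _).submatrix _,
    fun _ _ => ((q1 _ _).submatrix _).transpose, fun x => by
      rw [sum_one fun a => (P (x default) a).submatrix e e,
        ← submatrix_one_equiv e, ← p2 (x default)]
      ext; simp [Matrix.sum_apply], fun x => by
      rw [sum_one fun a => ((Q (x default) a).submatrix e' e')ᵀ,
        ← transpose_one, ← submatrix_one_equiv e', ← q2 (x default)]
      ext; simp [Matrix.sum_apply]⟩
  rw [prob_eq] at this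
  refine le_trans ?_ (mul_le_mul_of_nonneg_right this c.le)
  rw [Ex, sum_mul, ← sum_one]
  refine sum_le_sum fun w _ => ?_
  rw [PP, Fintype.prod_unique, mul_assoc, val, ← sum_one, sum_mul]
  refine mul_le_mul_of_nonneg_left (sum_le_sum fun a _ => ?_) ((toG G).pos _).le
  rw [← sum_one, sum_mul]
  refine sum_le_sum fun b _ => ?_
  have h1 := ev_nonneg K (p3 (w default) (a default)) (q1 ((toG G).py (w default)) (b default))
  have h2 := ev_nonneg K (hM.psd (w default) (a default)) (q3 (w default) (b default))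
  have h3 := ev_nonneg K (p1 ((toG G).px (w default)) (a default)) (q1 ((toG G).py (w default)) (b default))
  rw [ev_sub_l] at h1
  rw [ev_sub_r] at h2
  change _ ≤ _ * ev (((√(nq K))⁻¹ • K).submatrix e e') (Matrix.submatrix _ e e) (Matrix.submatrix _ e' e') * _
  rw [ev_subm, ev_smul, c2, mul_assoc, mul_right_comm _⁻¹, inv_mul_cancel₀ c.ne', one_mul]
  by_cases h : (toG G).acc (w default) (a default) (b default)
  · rw [if_pos (by exact h), if_pos (by exact_mod_cast card_pos.2 ⟨default, by simpa using h⟩), one_mul]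
    exact le_trans (by linarith) (sub_nonneg.1 h1)
  · rw [if_neg (by exact h)]
    exact mul_nonneg (by split_ifs <;> norm_num) h3

lemma comp_map (z : Zs G) : G.supportComponent z.1 = ((toG G).comp z).map (Embedding.subtype _) := by
  ext w
  simp only [Game.supportComponent, Gm.comp, mem_filter, mem_univ, true_and, mem_map, Embedding.subtype_apply,
    SimpleGraph.reachable_iff_reflTransGen]
  constructor
  · intro h
    induction h with
    | refl => exact ⟨z, .refl, rfl⟩
    | tail _ h ih =>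
      obtain ⟨u, hu, rfl⟩ := ih
      exact ⟨⟨_, h.2.2.1⟩, hu.tail ⟨fun e => h.1 (congrArg Subtype.val e), h.2.2.2⟩, rfl⟩
  · rintro ⟨u, h, rfl⟩
    induction h with
    | refl => exact .refl
    | @tail b c _ h ih => exact ih.tail ⟨fun e => h.1 (Subtype.ext e), b.2, c.2, h.2⟩

theorem fin {v δ c : ℝ} (hv : ∀ (dA dB : ℕ) (S : Strategy G 1 dA dB), S.probWinsAtLeast 1 ≤ v)
    (d0 : 0 < δ) (d1 : δ < 1 - v) (hk : 1 ≤ k)
    (hR : HV (toG G) v → δ ≤ 1 → 1 ≤ c ∧ Round (toG G) (v + δ / 4) c) :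
    S.probWinsAtLeast ((v + δ) * k) ≤
      Real.exp (-(δ ^ 2 / (256 * c * (1 + Real.log (G.nA * G.nB : ℕ))) * k)) := by
  have hK : nq (of (curry S.ψ)) = 1 := by rw [nq_eq, ← S.ψ_norm, Fintype.sum_prod_type]; rfl
  have hM : Pl (toG G).px fun w : Fin k → Zs G => S.M fun i => (w i).1.1 :=
    ⟨fun _ _ => S.M_posSemidef _ _, fun _ => S.M_sum _, fun i _ w z e => by
      congr 1; ext l
      by_cases c : l = i
      · rw [c, update_self]; exact congrArg _ e
      · rw [update_of_ne c]⟩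
  have hN : Pl (toG G).py fun (w : Fin k → Zs G) b => (S.N (fun i => (w i).1.2) b)ᵀ :=
    ⟨fun _ _ => (S.N_posSemidef _ _).transpose, fun _ => by rw [← transpose_sum, S.N_sum, transpose_one],
      fun i _ w z e => by
      ext1 b; congr 2; ext l
      by_cases c : l = i
      · rw [c, update_self]; exact congrArg _ e
      · rw [update_of_ne c]⟩
  have : Nonempty (Fin k) := ⟨⟨0, hk⟩⟩
  obtain ⟨z, -⟩ := nonempty_of_sum_ne_zero ((toG G).sum.trans_ne one_ne_zero)
  obtain ⟨a, -, h⟩ := exists_ne_zero_of_sum_ne_zero ((ev_tot hK hM hN 1 fun _ => z).trans_ne one_ne_zero)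
  obtain ⟨b, -⟩ := nonempty_of_sum_ne_zero h
  have : Nonempty (Fin G.nA) := ⟨a ⟨0, hk⟩⟩
  have : Nonempty (Fin G.nB) := ⟨b ⟨0, hk⟩⟩
  have h := hv_of hv
  obtain ⟨c1, r⟩ := hR h (by linarith [h.nonneg])
  simpa only [prob_eq, Fintype.card_fin] using main hK hM hN h.nonneg d0 (by linarith) c1 r

end

end Crest.Agent.H0536
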