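import Crest.Agent.H0536.W

set_option autoImplicit false
set_option linter.unusedSectionVars false
open Finset Matrix Filter
open scoped ComplexOrder Kronecker

namespace Crest.Agent.H0536

noncomputable section

structure Gm (Z X Y A B : Type) [Fintype Z] where
  μ : Z → ℝ
  px : Z → X
  py : Z → Y
  acc : Z → A → B → Bool
  pos : ∀ z, 0 < μ z
  sum : ∑ z, μ z = 1

variable {Z X Y A B : Type} [Fintype Z] [Fintype A] [Fintype B]
variable {α β α' β' : Type} [Fintype α] [DecidableEq α] [Fintype β] [DecidableEq β]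
  [Fintype α'] [DecidableEq α'] [Fintype β'] [DecidableEq β']

structure IsM (π : Z → X) (M : Z → A → Matrix α α ℂ) : Prop where
  psd : ∀ z a, (M z a).PosSemidef
  sub : ∀ z, (1 - ∑ a, M z a).PosSemidef
  dep : ∀ z z', π z = π z' → M z = M z'

structure IsF (π : Z → X) (M : Z → A → Matrix α α ℂ) (F : Z → Matrix α α ℂ) : Prop where
  psd : ∀ z a, (M z a).PosSemidef
  psdF : ∀ z, (F z).PosSemidef
  sub : ∀ z, (1 - ∑ a, M z a - F z).PosSemidef
  dep : ∀ z z', π z = π z' → M z = M z' ∧ F z = F z'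

def val (G : Gm Z X Y A B) (K : Matrix α β ℂ) (M : Z → A → Matrix α α ℂ) (N : Z → B → Matrix β β ℂ)
    (z : Z) : ℝ := ∑ a, ∑ b, if G.acc z a b then ev K (M z a) (N z b) else 0

def HV (G : Gm Z X Y A B) (v : ℝ) : Prop :=
  ∀ (α β : Type) [Fintype α] [DecidableEq α] [Fintype β] [DecidableEq β] (K : Matrix α β ℂ) M N,
    IsM G.px M → IsM G.py N → ∑ z, G.μ z * val G K M N z ≤ v * nq K

lemma ev_kron (K : Matrix α β ℂ) (K' : Matrix α' β' ℂ) {M : Matrix α α ℂ} {N : Matrix β β ℂ}
    (hM : M.PosSemidef) (hN : N.PosSemidef) (M' : Matrix α' α' ℂ) (N' : Matrix β' β' ℂ) :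
    ev (K ⊗ₖ K') (M ⊗ₖ M') (N ⊗ₖ N') = ev K M N * ev K' M' N' := by
  simp only [ev, rt, conjTranspose_kronecker, ← mul_kronecker_mul, trace_kronecker, Complex.mul_re]
  rw [← (Complex.nonneg_iff.1 (psd_mul (hM.conjTranspose_mul_mul_same K) hN)).2]
  simp

lemma nq_kron (K : Matrix α β ℂ) (K' : Matrix α' β' ℂ) : nq (K ⊗ₖ K') = nq K * nq K' := by
  rw [← ev_one, ← one_kronecker_one, ← one_kronecker_one, ev_kron _ _ PosSemidef.one PosSemidef.one,
    ev_one, ev_one]

lemma IsF.kron {π : Z → X} {M : Z → A → Matrix α α ℂ} {F : Z → Matrix α α ℂ} (h : IsF π M F)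
    {M' : Z → A → Matrix α' α' ℂ} (h' : IsM π M') :
    IsM π fun z a => M z a ⊗ₖ (1 : Matrix α' α' ℂ) + F z ⊗ₖ M' z a := by
  refine ⟨fun z a => ((h.psd z a).kronecker PosSemidef.one).add ((h.psdF z).kronecker (h'.psd z a)),
    fun z => ?_, fun z z' e => by rw [(h.dep z z' e).1, (h.dep z z' e).2, h'.dep z z' e]⟩
  refine Eq.mp (congrArg _ ?_)
    (((h.sub z).kronecker (PosSemidef.one (n := α'))).add ((h.psdF z).kronecker (h'.sub z)))
  rw [← one_kronecker_one]
  ext i j
  simp only [Matrix.sub_apply, Matrix.add_apply, Matrix.sum_apply, kroneckerMap_apply, sum_add_distrib,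
    ← sum_mul, ← mul_sum]
  ring

variable {G : Gm Z X Y A B} {v : ℝ}

lemma val_nonneg (K : Matrix α β ℂ) {M : Z → A → Matrix α α ℂ} {N : Z → B → Matrix β β ℂ} {z : Z}
    (hM : ∀ a, (M z a).PosSemidef) (hN : ∀ b, (N z b).PosSemidef) : 0 ≤ val G K M N z :=
  sum_nonneg fun a _ => sum_nonneg fun b _ => by
    split_ifs
    · exact ev_nonneg K (hM a) (hN b)
    · rfl

lemma val_le (K : Matrix α β ℂ) {M : Z → A → Matrix α α ℂ} {N : Z → B → Matrix β β ℂ} {z : Z}
    {F : Z → Matrix α α ℂ} {F' : Z → Matrix β β ℂ} (hM : IsF G.px M F) (hN : IsF G.py N F') :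
    val G K M N z ≤ nq K - ev K (F z) (F' z) := by
  have a : val G K M N z ≤ ev K (∑ a, M z a) (∑ b, N z b) := by
    rw [ev_sum_l]
    simp only [ev_sum_r]
    refine sum_le_sum fun a _ => sum_le_sum fun b _ => ?_
    split_ifs
    · rfl
    · exact ev_nonneg K (hM.psd z a) (hN.psd z b)
  have p := posSemidef_sum (s := univ) fun a _ => hM.psd z a
  have q := posSemidef_sum (s := univ) fun a _ => hN.psd z a
  have b1 := ev_nonneg K (hM.sub z) (PosSemidef.one (n := β))
  have b2 := ev_nonneg K (p.add (hM.psdF z)) (hN.sub z)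
  have b3 := ev_nonneg K p (hN.psdF z)
  have b4 := ev_nonneg K (hM.psdF z) q
  simp only [ev_sub_l, ev_sub_r, ev_add_l, ev_one] at b1 b2
  linarith

lemma IsM.toF {π : Z → X} {M : Z → A → Matrix α α ℂ} (h : IsM π M) : IsF π M fun _ => 0 :=
  ⟨h.psd, fun _ => PosSemidef.zero, fun z => by simpa using h.sub z, fun z z' e => ⟨h.dep z z' e, rfl⟩⟩

lemma isM_zero (π : Z → X) : IsM π fun _ (_ : A) => (0 : Matrix α α ℂ) :=
  ⟨fun _ _ => PosSemidef.zero, fun _ => by simpa using PosSemidef.one, fun _ _ _ => rfl⟩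

lemma HV.nonneg (h : HV G v) : 0 ≤ v := by
  simpa [val, ev_zero_l, nq, rt] using h Unit Unit 1 _ _ (isM_zero _) (isM_zero _)

theorem HV.sub (h : HV G v) (K : Matrix α β ℂ) {M : Z → A → Matrix α α ℂ} {N : Z → B → Matrix β β ℂ}
    {F : Z → Matrix α α ℂ} {F' : Z → Matrix β β ℂ} (hM : IsF G.px M F) (hN : IsF G.py N F') :
    ∑ z, G.μ z * (val G K M N z / (nq K - ev K (F z) (F' z))) ≤ v := by
  have s0 := fun z => val_nonneg (G := G) K (hM.psd z) (hN.psd z)
  have f0 := fun z => ev_nonneg K (hM.psdF z) (hN.psdF z)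
  have sf := fun z => val_le (z := z) K hM hN
  rcases eq_or_lt_of_le (nq_nonneg K) with T0 | T0
  · refine (sum_nonpos fun z _ => ?_).trans h.nonneg
    rw [show val G K M N z = 0 by linarith [s0 z, f0 z, sf z]]; simp
  have key : ∀ (n : ℕ) (α' β' : Type) [Fintype α'] [DecidableEq α'] [Fintype β'] [DecidableEq β']
      (K' : Matrix α' β' ℂ) M' N', IsM G.px M' → IsM G.py N' → ∑ z, G.μ z *
      (val G K M N z / nq K * (∑ l ∈ range n, (ev K (F z) (F' z) / nq K) ^ l) * nq K' +
        (ev K (F z) (F' z) / nq K) ^ n * val G K' M' N' z) ≤ v * nq K' := by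
    intro n
    induction n with
    | zero => simpa [HV] using h
    | succ n ih =>
      intro α' β' _ _ _ _ K' M' N' hM' hN'
      have := ih _ _ (K ⊗ₖ K') _ _ (hM.kron hM') (hN.kron hN')
      rw [nq_kron, mul_left_comm v] at this
      refine le_of_mul_le_mul_left (le_trans ?_ this) T0
      rw [mul_sum]
      refine sum_le_sum fun z _ => ?_
      rw [mul_left_comm]
      refine mul_le_mul_of_nonneg_left ?_ (G.pos z).le
      have : val G K M N z * nq K' + ev K (F z) (F' z) * val G K' M' N' z ≤ val G (K ⊗ₖ K')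
          (fun z a => M z a ⊗ₖ (1 : Matrix α' α' ℂ) + F z ⊗ₖ M' z a)
          (fun z b => N z b ⊗ₖ (1 : Matrix β' β' ℂ) + F' z ⊗ₖ N' z b) z := by
        simp only [val, sum_mul, mul_sum, ← sum_add_distrib]
        refine sum_le_sum fun a _ => sum_le_sum fun b _ => ?_
        split_ifs
        · rw [ev_add_l, ev_add_r, ev_add_r, ev_kron _ _ (hM.psd z a) (hN.psd z b),
            ev_kron _ _ (hM.psdF z) (hN.psdF z), ev_one]
          linarith [ev_nonneg (K ⊗ₖ K') ((hM.psd z a).kronecker PosSemidef.one)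
            ((hN.psdF z).kronecker (hN'.psd z b)), ev_nonneg (K ⊗ₖ K')
            ((hM.psdF z).kronecker (hM'.psd z a)) ((hN.psd z b).kronecker PosSemidef.one)]
        · simp
      refine le_trans (le_of_eq ?_) (add_le_add_right (mul_le_mul_of_nonneg_left this
        (pow_nonneg (div_nonneg (f0 z) T0.le) n)) _)
      rw [sum_range_succ, pow_succ]
      field_simp
      ring
  refine le_of_tendsto' (x := atTop) (tendsto_finsetSum univ fun z _ => Tendsto.const_mul (G.μ z) (f := fun n =>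
    val G K M N z / nq K * ∑ l ∈ range n, (ev K (F z) (F' z) / nq K) ^ l) ?_) fun n => ?_
  · rcases eq_or_lt_of_le (s0 z) with c | c
    · simp [← c]
    have c1 : 0 < nq K - ev K (F z) (F' z) := c.trans_le (sf z)
    convert (hasSum_geometric_of_lt_one (div_nonneg (f0 z) T0.le)
      ((div_lt_one T0).2 (by linarith))).tendsto_sum_nat.const_mul _ using 2
    field_simp
  · simpa [val, ev_zero_l, nq, rt] using key n Unit Unit 1 _ _ (isM_zero _) (isM_zero _)

/-! ### block diagonal matrices -/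

variable {Ω : Type} [Fintype Ω] [DecidableEq Ω]

lemma ev_bd (K : Ω → Matrix α β ℂ) (M : Ω → Matrix α α ℂ) (N : Ω → Matrix β β ℂ) :
    ev (blockDiagonal K) (blockDiagonal M) (blockDiagonal N) = ∑ c, ev (K c) (M c) (N c) := by
  simp [ev, rt, ← blockDiagonal_mul, trace_blockDiagonal]

lemma nq_bd (K : Ω → Matrix α β ℂ) : nq (blockDiagonal K) = ∑ c, nq (K c) := by
  simp [nq, rt, ← blockDiagonal_mul, trace_blockDiagonal]

lemma psd_bd {M : Ω → Matrix α α ℂ} (h : ∀ c, (M c).PosSemidef) : (blockDiagonal M).PosSemidef := by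
  choose B hB using fun c => psd_fac (h c)
  convert posSemidef_conjTranspose_mul_self (blockDiagonal B) using 1
  simp [← blockDiagonal_mul, ← hB]

lemma bd_sum {ι : Type*} (s : Finset ι) (M : ι → Ω → Matrix α β ℂ) :
    ∑ i ∈ s, blockDiagonal (M i) = blockDiagonal fun c => ∑ i ∈ s, M i c := by
  ext ⟨i, c⟩ ⟨j, d⟩
  simp only [Matrix.sum_apply, blockDiagonal_apply]
  split_ifs <;> simp

lemma isF_bd {π : Z → X} {M : Ω → Z → A → Matrix α α ℂ} {F : Ω → Z → Matrix α α ℂ}
    (h : ∀ c, IsF π (M c) (F c)) :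
    IsF π (fun z a => blockDiagonal fun c => M c z a) fun z => blockDiagonal fun c => F c z := by
  refine ⟨fun z a => psd_bd fun c => (h c).psd z a, fun z => psd_bd fun c => (h c).psdF z, fun z => ?_,
    fun z z' e => by simp only [fun c => ((h c).dep z z' e).1, fun c => ((h c).dep z z' e).2, and_self]⟩
  rw [bd_sum, ← blockDiagonal_one, ← blockDiagonal_sub, ← blockDiagonal_sub]
  exact psd_bd fun c => (h c).sub z

lemma isM_bd {π : Z → X} {M : Ω → Z → A → Matrix α α ℂ} (h : ∀ c, IsM π (M c)) :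
    IsM π fun z a => blockDiagonal fun c => M c z a := by
  refine ⟨fun z a => psd_bd fun c => (h c).psd z a, fun z => ?_,
    fun z z' e => by simp only [fun c => (h c).dep z z' e]⟩
  rw [bd_sum, ← blockDiagonal_one, ← blockDiagonal_sub]
  exact psd_bd fun c => (h c).sub z

lemma val_bd (K : Ω → Matrix α β ℂ) (M : Ω → Z → A → Matrix α α ℂ) (N : Ω → Z → B → Matrix β β ℂ) (z : Z) :
    val G (blockDiagonal K) (fun z a => blockDiagonal fun c => M c z a)
      (fun z b => blockDiagonal fun c => N c z b) z = ∑ c, val G (K c) (M c) (N c) z := by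
  simp only [val, ev_bd]
  rw [sum_comm (s := (univ : Finset Ω))]
  refine sum_congr rfl fun a _ => ?_
  rw [sum_comm]
  refine sum_congr rfl fun b _ => ?_
  split_ifs <;> simp

lemma val_add_le (K L : Matrix α β ℂ) {M : Z → A → Matrix α α ℂ} {N : Z → B → Matrix β β ℂ}
    (hM : IsM G.px M) (hN : IsM G.py N) (z : Z) {η : ℝ} (hη : 0 < η) :
    val G K M N z ≤ (1 + η) * val G L M N z + (1 + 1 / η) * nq (K - L) := by
  have := val_le (z := z) (K - L) hM.toF hN.toF
  rw [ev_zero_l, sub_zero] at this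
  refine le_trans ?_ (add_le_add_right (mul_le_mul_of_nonneg_left this (by positivity)) _)
  simp only [val, mul_sum, ← sum_add_distrib]
  refine sum_le_sum fun a _ => sum_le_sum fun b _ => ?_
  split_ifs
  · simpa using ev_add_le L (K - L) (hM.psd z a) (hN.psd z b) hη
  · simp

lemma le_div_add {s P c : ℝ} (h0 : 0 ≤ s) (h : s ≤ P) (hc : P - 1 ≤ c) (c0 : 0 ≤ c) : s ≤ s / P + c := by
  rcases eq_or_lt_of_le (h0.trans h) with e | e
  · rw [show s = 0 by linarith]; simpa
  have h1 : s / P ≤ 1 := (div_le_one e).2 h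
  have h2 := mul_div_cancel₀ s e.ne'
  nlinarith [mul_le_mul_of_nonneg_left hc (div_nonneg h0 e.le)]

/-- the rounding property used in the repetition argument -/
def Round (G : Gm Z X Y A B) (w c : ℝ) : Prop :=
  ∀ (α β : Type) [Fintype α] [DecidableEq α] [Fintype β] [DecidableEq β] (Ψ Θ Θ' : Z → Matrix α β ℂ)
    M N, IsM G.px M → IsM G.py N → (∀ z z', G.px z = G.px z' → Θ z = Θ z') →
    (∀ z z', G.py z = G.py z' → Θ' z = Θ' z') → ∑ z, G.μ z * val G (Ψ z) M N z ≤
      w + c * ∑ z, G.μ z * ((fn (Ψ z) - 1) ^ 2 + nq (Ψ z - Θ z) + nq (Ψ z - Θ' z))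

end

end Crest.Agent.H0536
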