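import Crest.Agent.H0536.Ctx
import Crest.Agent.H0536.Sub

set_option autoImplicit false
set_option linter.unusedSectionVars false
open Finset Matrix Function
open scoped ComplexOrder Nat

namespace Crest.Agent.H0536

noncomputable section
open Classical

variable {ι Z X Y A B : Type} [Fintype ι] [DecidableEq ι] [Fintype Z] [Fintype A] [Fintype B]
variable {α β : Type} [Fintype α] [DecidableEq α] [Fintype β] [DecidableEq β]

def gp {S I : Type} [Fintype S] (r : S → I) (M : S → Matrix α α ℂ) (s : I) : Matrix α α ℂ :=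
  ∑ a with r a = s, M a

lemma gp_pair {S I J : Type} [Fintype S] [Fintype J] (r : S → I) (e : S → J) (M : S → Matrix α α ℂ)
    (s : I) : gp r M s = ∑ x, gp (fun a => (r a, e a)) M (s, x) := by
  simp only [gp, Prod.mk.injEq, ← filter_filter]
  convert (sum_fiberwise _ e M).symm

lemma ev_gp {S I S' I' : Type} [Fintype S] [Fintype I] [Fintype S'] [Fintype I'] (r : S → I)
    (r' : S' → I') (K : Matrix α β ℂ) (M : S → Matrix α α ℂ) (N : S' → Matrix β β ℂ) (h : I → I' → ℝ) :
    ∑ a, ∑ b, h (r a) (r' b) * ev K (M a) (N b) = ∑ s, ∑ t, h s t * ev K (gp r M s) (gp r' N t) := by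
  rw [← sum_fiberwise univ r]
  refine sum_congr rfl fun s _ => ?_
  simp only [gp, ev_sum_l, mul_sum]
  rw [sum_comm (s := (univ : Finset I'))]
  refine sum_congr rfl fun a ha => ?_
  rw [← sum_fiberwise univ r']
  refine sum_congr rfl fun t _ => ?_
  rw [ev_sum_r, mul_sum]
  exact sum_congr rfl fun b hb => by rw [(mem_filter.1 ha).2, (mem_filter.1 hb).2]

/-- a player's measurements in the repeated game -/
structure Pl (π : Z → X) (M : (ι → Z) → (ι → A) → Matrix α α ℂ) : Prop where
  psd : ∀ w a, (M w a).PosSemidef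
  sum : ∀ w, ∑ a, M w a = 1
  inv : Inv π univ M

section
variable {π : Z → X} {M : (ι → Z) → (ι → A) → Matrix α α ℂ} (h : Pl π M) {I : Type} [Fintype I]
  (r : (ι → A) → I)
include h

lemma Pl.gpsd (s : I) (w : ι → Z) : (gp r (M w) s).PosSemidef := posSemidef_sum _ fun a _ => h.psd w a

lemma Pl.gsum (w : ι → Z) : ∑ s, gp r (M w) s = 1 := by rw [← h.sum w]; exact sum_fiberwise _ _ _

lemma Pl.gsub (s : I) (w : ι → Z) : (1 - gp r (M w) s).PosSemidef := by
  rw [← h.gsum r w, ← add_sum_erase _ _ (mem_univ s), add_sub_cancel_left]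
  exact posSemidef_sum _ fun a _ => h.gpsd r a w

lemma Pl.ginv (s : I) : Inv π univ fun w => gp r (M w) s := fun i hi w z e => by
  simp only [h.inv i hi w z e]

end

lemma Inv.upd {T : Type*} {π : Z → X} {F : (ι → Z) → T} (h : Inv π univ F) (i : ι) (z : Z) :
    Inv π univ fun w => F (update w i z) := fun l hl w z' e => by
  by_cases c : l = i
  · simp only [c, update_idem]
  · simp only [update_comm c]
    exact h l hl _ _ (by rwa [update_of_ne c])

variable (G : Gm Z X Y A B) (K : Matrix α β ℂ)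

lemma fac {U V : Finset ι} (hUV : Disjoint U V) {h : (ι → Z) → ℝ}
    (hh : ∀ i, i ∈ U ∨ i ∈ V → ∀ w z, h (update w i z) = h w) {F : (ι → Z) → Matrix α α ℂ}
    {F' : (ι → Z) → Matrix β β ℂ} (hF : Inv G.px univ F) (hF' : Inv G.py univ F') :
    ∑ w, PP G.μ w * (h w * ev K (av G.μ G.py U F w) (av G.μ G.px V F' w)) =
      ∑ w, PP G.μ w * (h w * ev K (F w) (F' w)) := by
  have a := av_fac G.pos G.sum (π := G.py) (U := U) F (σ := fun w => h w • (K * av G.μ G.px V F' w * Kᴴ))
    fun i hi w z e => by simp only [hh i (.inl hi), av_inv' hUV.symm hF' i hi w z e]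
  have b := av_fac G.pos G.sum (π := G.px) (U := V) F' (σ := fun w => h w • (Kᴴ * F w * Kᴴᴴ))
    fun i hi w z e => by simp only [hh i (.inr hi), hF i (mem_univ _) w z e]
  simp only [mul_smul_comm, rt_smul, ← ev_left, ev_ct] at a b
  rw [a, b]

def Ex (M : (ι → Z) → (ι → A) → Matrix α α ℂ) (N : (ι → Z) → (ι → B) → Matrix β β ℂ)
    (f : (ι → Z) → (ι → A) → (ι → B) → ℝ) : ℝ :=
  ∑ w, PP G.μ w * ∑ a, ∑ b, f w a b * ev K (M w a) (N w b)

lemma meas_fn (m n J : Type) [Fintype m] [DecidableEq m] [Fintype n] [DecidableEq n] [Fintype J] :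
    ∃ f : Matrix m n ℂ → (J → Matrix n n ℂ) → J → Matrix m m ℂ, ∀ W A, (∀ a, (A a).PosSemidef) →
      Wᴴ * W = ∑ a, A a → (∀ a, (f W A a).PosSemidef) ∧ (1 - ∑ a, f W A a).PosSemidef ∧
        ∀ a, Wᴴ * f W A a * W = A a := by
  choose! f hf using @exists_meas m n _ _ _ J _ _
  exact ⟨f, hf⟩

lemma side {μ : Z → ℝ} (h0 : ∀ z, 0 < μ z) (h1 : ∑ z, μ z = 1) {π : Z → X} (π' : Z → Y)
    {M : (ι → Z) → (ι → A) → Matrix α α ℂ} (hM : Pl π M) {I : Type} [Fintype I] (r : (ι → A) → I)
    {γ : Type} [Fintype γ] [DecidableEq γ] {W : Matrix α α ℂ → Matrix γ α ℂ}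
    (hW : ∀ U a w, (W (av μ π' U (fun w => gp r (M w) a) w))ᴴ * W (av μ π' U (fun w => gp r (M w) a) w) =
      av μ π' U (fun w => gp r (M w) a) w) {U : Finset ι} {i : ι} (hi : i ∉ U) :
    ∃ Q : (ι → Z) → I → Z → A → Matrix γ γ ℂ, (∀ w s, IsM π (Q w s)) ∧ ∀ w s z x,
      (W (av μ π' U (fun w => gp r (M w) s) (update w i z)))ᴴ * Q w s z x *
        W (av μ π' U (fun w => gp r (M w) s) (update w i z)) =
      av μ π' U (fun w => gp (fun a => (r a, a i)) (M w) (s, x)) (update w i z) := by
  obtain ⟨f, hf⟩ := meas_fn γ α A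
  have := fun w s => hf _ (fun x => av μ π' U (fun w => gp (fun a => (r a, a i)) (M w) (s, x)) w)
    (fun x => av_psd h0 _ (hM.gpsd _ _) _) ((hW U s w).trans (by
      rw [← av_sum]; simp only [← gp_pair]))
  refine ⟨fun w s z => f _ _, fun w s => ⟨fun z => (this _ s).1, fun z => (this _ s).2.1, fun z z' e => ?_⟩,
    fun w s z => (this _ s).2.2⟩
  have : ∀ F : (ι → Z) → Matrix α α ℂ, Inv π univ F →
      av μ π' U F (update w i z) = av μ π' U F (update w i z') := fun F hF => by
    rw [← av_inv' (E := {i}) (disjoint_singleton_right.2 hi) hF i (mem_singleton_self _) (update w i z') z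
      (by rwa [update_self]), update_idem]
  simp only [this _ (hM.ginv _ _)]

variable {G K} {M : (ι → Z) → (ι → A) → Matrix α α ℂ} {N : (ι → Z) → (ι → B) → Matrix β β ℂ}
  (hK : nq K = 1) (hM : Pl G.px M) (hN : Pl G.py N)
include hM hN

lemma Ex_mono {f f' : (ι → Z) → (ι → A) → (ι → B) → ℝ} (h : ∀ w a b, f w a b ≤ f' w a b) :
    Ex G K M N f ≤ Ex G K M N f' :=
  sum_le_sum fun w _ => mul_le_mul_of_nonneg_left (sum_le_sum fun a _ => sum_le_sum fun b _ =>
    mul_le_mul_of_nonneg_right (h w a b) (ev_nonneg K (hM.psd w a) (hN.psd w b))) (PP_pos G.pos w).le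

include hK

lemma ev_tot (c : ℝ) (w : ι → Z) : ∑ a, ∑ b, c * ev K (M w a) (N w b) = c := by
  simp only [← mul_sum, ← ev_sum_r, ← ev_sum_l, hM.sum, hN.sum, ev_one, hK, mul_one]

lemma Ex_const (c : ℝ) : Ex G K M N (fun _ _ _ => c) = c := by
  simp only [Ex, ev_tot hK hM hN, ← sum_mul, PP, prod_one' fun _ : ι => G.sum, one_mul]

theorem core {I I' : Type} [Fintype I] [Fintype I'] (r : (ι → A) → I) (r' : (ι → B) → I')
    (g : (ι → Z) → I → I' → ℝ) {g0 : ℝ} (p0 : 0 < g0) (g1 : ∀ w s t, g0 ≤ g w s t)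
    (g2 : ∀ w s t, g w s t ≤ 1) (D : Finset ι) (g3 : ∀ i ∈ D, ∀ w z, g (update w i z) = g w)
    {w0 c : ℝ} (c0 : 0 ≤ c) (hR : Round G w0 c) :
    ∑ i ∈ D, Ex G K M N (fun w a b => g w (r a) (r' b) * if G.acc (w i) (a i) (b i) then 1 else 0) ≤
      Ex G K M N (fun w a b => g w (r a) (r' b)) * (#D * w0 + c * (5 * -Real.log g0 +
        2 * (Real.log (Fintype.card I) + Real.log (Fintype.card I')))) := by
  obtain ⟨p, hp⟩ : ∃ p, p = Ex G K M N fun w a b => g w (r a) (r' b) := ⟨_, rfl⟩
  have p1 : g0 ≤ p := hp ▸ (Ex_const hK hM hN g0).ge.trans (Ex_mono hM hN fun w a b => g1 _ _ _)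
  have pp := p0.trans_le p1
  have gp0 : ∀ w s t, 0 ≤ g w s t := fun w s t => p0.le.trans (g1 w s t)
  have P0 := fun w : ι → Z => (PP_pos G.pos w).le
  obtain ⟨γ, _, _, W, w1, w2⟩ := exists_WF G.pos G.sum G.py _ (hM.gpsd r) (hM.gsub r)
  obtain ⟨γ', _, _, W', w1', w2'⟩ := exists_WF G.pos G.sum G.px _ (hN.gpsd r') (hN.gsub r')
  set a : Finset ι → I → (ι → Z) → Matrix α α ℂ := fun U s => av G.μ G.py U fun w => gp r (M w) s with ha
  set b : Finset ι → I' → (ι → Z) → Matrix β β ℂ := fun U s => av G.μ G.px U fun w => gp r' (N w) s with hb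
  set ρ : (ι → Z) → ℝ := fun w => (∑ s, ∑ t, g w s t * ev K (gp r (M w) s) (gp r' (N w) t)) / p with hρ
  have hp' : ∑ w, PP G.μ w * ∑ s, ∑ t, g w s t * ev K (gp r (M w) s) (gp r' (N w) t) = p := by
    simp only [hp, Ex, ev_gp r r' K]
  have z0 := raz G.pos G.sum D (ρ := ρ) (L := -Real.log g0) (fun w => div_pos (p0.trans_le (by
      rw [← ev_gp, ← ev_tot hK hM hN g0 w]
      exact sum_le_sum fun a _ => sum_le_sum fun b _ => mul_le_mul_of_nonneg_right (g1 _ _ _)
        (ev_nonneg K (hM.psd w a) (hN.psd w b)))) pp) (fun w => by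
      rw [← Real.log_inv]
      refine Real.log_le_log (div_pos (p0.trans_le ?_) pp) ((div_le_div₀ zero_le_one ?_ p0 p1).trans_eq
        (one_div _)) <;> rw [← ev_gp]
      · rw [← ev_tot hK hM hN g0 w]
        exact sum_le_sum fun a _ => sum_le_sum fun b _ => mul_le_mul_of_nonneg_right (g1 _ _ _)
          (ev_nonneg K (hM.psd w a) (hN.psd w b))
      · rw [← ev_tot hK hM hN 1 w]
        exact sum_le_sum fun a _ => sum_le_sum fun b _ => mul_le_mul_of_nonneg_right (g2 _ _ _)
          (ev_nonneg K (hM.psd w a) (hN.psd w b)))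
    (by simp only [hρ, ← mul_div_assoc, ← sum_div, hp', div_self pp.ne'])
  -- the error terms
  set eA : ι → Finset ι → Finset ι → ℝ := fun i U V => ∑ w, PP G.μ w * ∑ s,
    rt ((W (a U s w) - W (a (insert i U) s w))ᴴ * (W (a U s w) - W (a (insert i U) s w)) *
      ∑ t, g w s t • (K * b V t w * Kᴴ)) with heA
  set eB : ι → Finset ι → Finset ι → ℝ := fun i V U => ∑ w, PP G.μ w * ∑ t,
    rt ((W' (b V t w) - W' (b (insert i V) t w))ᴴ * (W' (b V t w) - W' (b (insert i V) t w)) *
      ∑ s, g w s t • (Kᴴ * a U s w * Kᴴᴴ)) with heB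
  have lg : ∀ n : ℕ, (Real.log (n / p) - 1) * p + Real.exp (-Real.log (n / p)) * n ≤
      p * (Real.log n - Real.log g0) := fun n => by
    have := Real.log_le_log p0 p1
    rcases Nat.eq_zero_or_pos n with rfl | h
    · have := Real.log_nonpos p0.le (p1.trans (hp ▸ (Ex_mono hM hN fun w a b => g2 _ _ _).trans_eq
        (Ex_const hK hM hN 1)))
      simp; nlinarith
    have h : (0 : ℝ) < n := by exact_mod_cast h
    rw [Real.exp_neg, Real.exp_log (by positivity), Real.log_div h.ne' pp.ne', inv_div,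
      div_mul_cancel₀ _ h.ne']
    nlinarith
  have a0 : ∀ U s w, (a U s w).PosSemidef := fun U s w => av_psd G.pos _ (hM.gpsd r s) w
  have b0 : ∀ U s w, (b U s w).PosSemidef := fun U s w => av_psd G.pos _ (hN.gpsd r' s) w
  have a1 : ∀ U w, ∑ s, a U s w = 1 := fun U w => by
    simp only [ha, ← av_sum, hM.gsum, av_const G.pos G.sum]
  have b1 : ∀ U w, ∑ s, b U s w = 1 := fun U w => by
    simp only [hb, ← av_sum, hN.gsum, av_const G.pos G.sum]
  have PP1 : ∑ w : ι → Z, PP G.μ w = 1 := prod_one' fun _ : ι => G.sum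
  have zA : TS D eA ≤ TB D * (p * (Real.log (Fintype.card I) - Real.log g0)) := by
    rw [TS_eq, TB, sum_mul]
    refine sum_le_sum fun V hV => ?_
    rw [mul_assoc]
    refine mul_le_mul_of_nonneg_left ((w2 (D \ V) (fun s w => ∑ t, g w s t • (K * b V t w * Kᴴ))
      (Real.log (Fintype.card I / p)) (fun s w => posSemidef_sum _ fun t _ =>
        psd_smul ((b0 V t w).mul_mul_conjTranspose_same K) (gp0 _ _ _)) fun s i hi w z e => by
      simp only [g3 i (mem_sdiff.1 hi).1, hb, fun t => av_inv' (μ := G.μ) (π := G.px) disjoint_sdiff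
        (hN.ginv r' t) i hi w z e]).trans (mul_le_mul_of_nonneg_left (le_trans (add_le_add
          (le_of_eq ?_) (mul_le_mul_of_nonneg_left ?_ (Real.exp_pos _).le)) (lg _)) (by positivity)))
      (by positivity)
    · congr 1
      have := fun s t => fac G K (disjoint_empty_left V) (h := fun w => g w s t) (fun i hi w z => by
        rw [g3 i (mem_powerset.1 hV (by simpa using hi))]) (hM.ginv r s) (hN.ginv r' t)
      simp only [av_empty G.pos G.sum] at this
      simp only [mul_sum, rt_sum, mul_smul_comm, rt_smul, ← ev_left, ← hp']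
      rw [sum_comm (s := (univ : Finset (ι → Z)))]
      refine sum_congr rfl fun s _ => ?_
      rw [sum_comm, sum_comm (s := (univ : Finset (ι → Z)))]
      exact sum_congr rfl fun t _ => this s t
    · refine (sum_le_card_nsmul _ _ 1 fun s _ => ?_).trans_eq (by simp)
      rw [← PP1]
      refine sum_le_sum fun w _ => mul_le_of_le_one_right (P0 w) ?_
      rw [← hK, ← ev_one, ← b1 V w, ev_sum_r, rt_sum]
      refine sum_le_sum fun t _ => ?_
      rw [rt_smul, ev_left, Matrix.one_mul]
      exact mul_le_of_le_one_left (rt_nonneg ((b0 V t w).mul_mul_conjTranspose_same K)) (g2 _ _ _)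
  have zB : TS D eB ≤ TB D * (p * (Real.log (Fintype.card I') - Real.log g0)) := by
    rw [TS_eq, TB, sum_mul]
    refine sum_le_sum fun V hV => ?_
    rw [mul_assoc]
    refine mul_le_mul_of_nonneg_left ((w2' (D \ V) (fun t w => ∑ s, g w s t • (Kᴴ * a V s w * Kᴴᴴ))
      (Real.log (Fintype.card I' / p)) (fun s w => posSemidef_sum _ fun t _ =>
        psd_smul ((a0 V t w).mul_mul_conjTranspose_same Kᴴ) (gp0 _ _ _)) fun s i hi w z e => by
      simp only [g3 i (mem_sdiff.1 hi).1, ha, fun t => av_inv' (μ := G.μ) (π := G.py) disjoint_sdiff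
        (hM.ginv r t) i hi w z e]).trans (mul_le_mul_of_nonneg_left (le_trans (add_le_add
          (le_of_eq ?_) (mul_le_mul_of_nonneg_left ?_ (Real.exp_pos _).le)) (lg _)) (by positivity)))
      (by positivity)
    · congr 1
      have := fun s t => fac G K (disjoint_empty_right V) (h := fun w => g w s t) (fun i hi w z => by
        rw [g3 i (mem_powerset.1 hV (by simpa using hi))]) (hM.ginv r s) (hN.ginv r' t)
      simp only [av_empty G.pos G.sum] at this
      simp only [mul_sum, rt_sum, mul_smul_comm, rt_smul, ← ev_left, ev_ct, ← hp']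
      rw [sum_comm (s := (univ : Finset (ι → Z))), sum_congr rfl fun t _ => sum_comm,
        sum_comm (s := (univ : Finset I'))]
      refine sum_congr rfl fun s _ => ?_
      rw [sum_comm (s := (univ : Finset (ι → Z)))]
      exact sum_congr rfl fun t _ => this s t
    · refine (sum_le_card_nsmul _ _ 1 fun s _ => ?_).trans_eq (by simp)
      rw [← PP1]
      refine sum_le_sum fun w _ => mul_le_of_le_one_right (P0 w) ?_
      rw [← hK, ← nq_ct, ← ev_one, ← a1 V w, ev_sum_r, rt_sum]
      refine sum_le_sum fun t _ => ?_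
      rw [rt_smul, ev_left, Matrix.one_mul]
      exact mul_le_of_le_one_left (rt_nonneg ((a0 V t w).mul_mul_conjTranspose_same Kᴴ)) (g2 _ _ _)
  set y : ι → ℝ := fun i =>
    Ex G K M N fun w a b => g w (r a) (r' b) * if G.acc (w i) (a i) (b i) then 1 else 0 with hy
  have key := TS_mono (D := D) (c := c) (g := eA) (h := fun i U V => eB i V U) (f := fun i _ _ => y i -
    p * (w0 + c * ∑ z, G.μ z * (√(∑ w, PP G.μ w * ρ (update w i z)) - 1) ^ 2))
    fun i U V hi hU hV hUV iU iV => by
    obtain ⟨Q, q1, q2⟩ := side G.pos G.sum G.py hM r w1 iU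
    obtain ⟨Q', q1', q2'⟩ := side G.pos G.sum G.px hN r' w1' iV
    let co : (ι → Z) × I × I' → ℝ := fun q => √(PP G.μ q.1 * g q.1 q.2.1 q.2.2 / p)
    have co2 : ∀ q, co q ^ 2 = PP G.μ q.1 * g q.1 q.2.1 q.2.2 / p := fun q =>
      Real.sq_sqrt (div_nonneg (mul_nonneg (P0 _) (gp0 _ _ _)) pp.le)
    let S : Finset ι → Finset ι → Z → (ι → Z) × I × I' → Matrix γ γ' ℂ := fun U V z q =>
      co q • (W (a U q.2.1 (update q.1 i z)) * K * (W' (b V q.2.2 (update q.1 i z)))ᴴ)
    have d1 : ∀ {X' : Type} {π : Z → X'} {T : Type} {F : (ι → Z) → T} {E : Finset ι}, Inv π E F → i ∈ E →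
        ∀ w z z', π z = π z' → F (update w i z) = F (update w i z') := fun hF hi w z z' e => by
      rw [← hF i hi (update w i z') z (by rwa [update_self]), update_idem]
    have R := hR _ _ (fun z => blockDiagonal (S U V z)) (fun z => blockDiagonal (S U (insert i V) z))
      (fun z => blockDiagonal (S (insert i U) V z)) _ _ (isM_bd fun q : (ι → Z) × I × I' => q1 q.1 q.2.1)
      (isM_bd fun q : (ι → Z) × I × I' => q1' q.1 q.2.2) (fun z z' e => by
        simp only [S, ha, hb, fun s w => d1 (av_inv' (μ := G.μ) (π := G.py) (disjoint_singleton_right.2 iU)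
          (hM.ginv r s)) (mem_singleton_self _) w z z' e,
          fun F w => d1 (av_inv (μ := G.μ) (π := G.px) (α := β) _ F) (mem_insert_self i V) w z z' e])
      fun z z' e => by
        simp only [S, ha, hb, fun s w => d1 (av_inv' (μ := G.μ) (π := G.px) (disjoint_singleton_right.2 iV)
          (hN.ginv r' s)) (mem_singleton_self _) w z z' e,
          fun F w => d1 (av_inv (μ := G.μ) (π := G.py) (α := α) _ F) (mem_insert_self i U) w z z' e]
    have gi : ∀ s t l, l ∈ U ∨ l ∈ V → ∀ w z, g (update w l z) s t = g w s t := fun s t l hl w z => by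
      rw [g3 l (hl.elim (@hU l) (@hV l))]
    have e1 : ∑ z, G.μ z * val G (blockDiagonal (S U V z)) (fun z x => blockDiagonal fun q => Q q.1 q.2.1 z x)
        (fun z x => blockDiagonal fun q => Q' q.1 q.2.2 z x) z = y i / p := by
      simp only [hy, Ex]
      rw [PP_res G.sum i, sum_div]
      refine sum_congr rfl fun z _ => ?_
      rw [mul_div_assoc, val_bd]
      congr 1
      simp only [update_self, g3 i hi, fun w => ev_gp (fun a => (r a, a i)) (fun a => (r' a, a i)) K
        (M (update w i z)) (N (update w i z)) fun s t => g w s.1 t.1 * if G.acc z s.2 t.2 then 1 else 0]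
      simp only [Fintype.sum_prod_type, mul_sum, sum_div, val]
      rw [sum_comm, sum_comm (s := (univ : Finset (ι → Z)))]
      refine sum_congr rfl fun s _ => ?_
      rw [sum_congr rfl fun w _ => sum_comm (s := (univ : Finset A)), sum_comm,
        sum_comm (s := (univ : Finset (ι → Z)))]
      refine sum_congr rfl fun t _ => ?_
      rw [sum_comm, sum_comm (s := (univ : Finset (ι → Z)))]
      refine sum_congr rfl fun x _ => ?_
      rw [sum_comm, sum_comm (s := (univ : Finset (ι → Z)))]
      refine sum_congr rfl fun x' _ => ?_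
      split_ifs
      · have := fac G K hUV (h := fun w => g w s t) (gi s t) ((hM.ginv (fun a => (r a, a i)) (s, x)).upd i z)
          ((hN.ginv (fun a => (r' a, a i)) (t, x')).upd i z)
        simp only [mul_one, ← sum_div, ← this]
        simp only [sum_div, S, ev_smul, ev_conj, co2, conjTranspose_conjTranspose, ha, hb, q2, q2']
        simp only [av_upd iU, av_upd iV]
        exact sum_congr rfl fun w _ => by ring
      · simp
    have e2 : ∀ z, fn (blockDiagonal (S U V z)) = √(∑ w, PP G.μ w * ρ (update w i z)) := fun z => by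
      rw [fn, nq_bd]
      congr 1
      simp only [Fintype.sum_prod_type, hρ, mul_sum, sum_div, g3 i hi]
      rw [sum_comm, sum_comm (s := (univ : Finset (ι → Z)))]
      refine sum_congr rfl fun s _ => ?_
      rw [sum_comm, sum_comm (s := (univ : Finset (ι → Z)))]
      refine sum_congr rfl fun t _ => ?_
      have := fac G K hUV (h := fun w => g w s t) (gi s t) ((hM.ginv r s).upd i z) ((hN.ginv r' t).upd i z)
      simp only [← mul_div_assoc, ← sum_div, ← this]
      simp only [sum_div, S, nq_smul, co2, ← ev_eq, conjTranspose_conjTranspose, ha, hb, w1, w1']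
      simp only [av_upd iU, av_upd iV]
      exact sum_congr rfl fun w _ => by ring
    have e3 : ∑ z, G.μ z * nq (blockDiagonal (S U V z) - blockDiagonal (S (insert i U) V z)) =
        eA i U V / p := by
      simp only [heA]
      rw [PP_res G.sum i, sum_div]
      refine sum_congr rfl fun z _ => ?_
      rw [mul_div_assoc, ← blockDiagonal_sub, nq_bd]
      congr 1
      simp only [Fintype.sum_prod_type, mul_sum, sum_div, g3 i hi, rt_sum, mul_smul_comm, rt_smul,
        ← ev_left, S, Pi.sub_apply, ← smul_sub, ← Matrix.sub_mul, nq_smul, co2, ← ev_eq,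
        conjTranspose_conjTranspose, hb, w1']
      exact sum_congr rfl fun w _ => sum_congr rfl fun s _ => sum_congr rfl fun t _ => by ring
    have e4 : ∑ z, G.μ z * nq (blockDiagonal (S U V z) - blockDiagonal (S U (insert i V) z)) =
        eB i V U / p := by
      simp only [heB]
      rw [PP_res G.sum i, sum_div]
      refine sum_congr rfl fun z _ => ?_
      rw [mul_div_assoc, ← blockDiagonal_sub, nq_bd]
      congr 1
      simp only [Fintype.sum_prod_type, mul_sum, sum_div, g3 i hi, rt_sum, mul_smul_comm, rt_smul,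
        ← ev_left, S, Pi.sub_apply, ← smul_sub, ← Matrix.mul_sub, ← conjTranspose_sub, nq_smul, co2,
        ← ev_eq, conjTranspose_conjTranspose (W' _ - _), ha, w1, ev_ct]
      refine sum_congr rfl fun w _ => ?_
      rw [sum_comm]
      exact sum_congr rfl fun s _ => sum_congr rfl fun t _ => by ring
    simp only [mul_add (G.μ _), sum_add_distrib, e1, e2, e3, e4] at R
    rw [div_le_iff₀ pp] at R
    have := div_mul_cancel₀ (eA i U V) pp.ne'
    have := div_mul_cancel₀ (eB i V U) pp.ne'
    nlinarith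
  rw [← TS_swap D eB] at key
  have k2 := TS_const D fun i => y i -
    p * (w0 + c * ∑ z, G.μ z * (√(∑ w, PP G.μ w * ρ (update w i z)) - 1) ^ 2)
  rw [sum_sub_distrib, ← mul_sum, sum_add_distrib, ← mul_sum, sum_const, nsmul_eq_mul] at k2
  have k3 := mul_le_mul_of_nonneg_left (add_le_add zA zB) c0
  have k4 := mul_le_mul_of_nonneg_left z0 (mul_nonneg (mul_nonneg (TB_pos D).le pp.le) c0)
  rw [← hp]
  refine le_of_mul_le_mul_left ?_ (TB_pos D)
  linarith

end

end Crest.Agent.H0536
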