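import Crest.Agent.H0536.W

set_option autoImplicit false
set_option linter.unusedSectionVars false
open Finset Matrix Function
open scoped ComplexOrder Nat

namespace Crest.Agent.H0536

noncomputable section
open Classical

variable {ι Z X : Type} [Fintype ι] [DecidableEq ι] [Fintype Z]

lemma resample {E : Type*} [AddCommMonoid E] [Module ℝ E] {r r' : ι → Z → ℝ} (i : ι)
    (h : ∀ l, l ≠ i → r l = r' l) (h1 : ∑ z, r' i z = 1) (Φ : (ι → Z) → E) :
    ∑ w, (∏ l, r l (w l)) • Φ w = ∑ z, r i z • ∑ w, (∏ l, r' l (w l)) • Φ (update w i z) := by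
  have : ∑ w, (∏ l, r l (w l)) • Φ w = ∑ p : Z × (ι → Z), (r' i p.1 * ∏ l, r l (p.2 l)) • Φ p.2 := by
    rw [Fintype.sum_prod_type_right]
    simp only [← sum_smul, ← sum_mul, h1, one_mul]
  simp only [this, smul_sum, smul_smul, ← Fintype.sum_prod_type']
  refine Fintype.sum_bijective (fun p => (p.2 i, update p.2 i p.1))
    (Involutive.bijective fun p => by simp) _ _ fun p => ?_
  simp only [update_idem, update_eq_self]
  rw [← mul_prod_erase _ _ (mem_univ i), ← mul_prod_erase _ _ (mem_univ i), update_self, mul_left_comm,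
    prod_congr rfl fun l hl => by rw [h l (ne_of_mem_erase hl), ← update_of_ne (ne_of_mem_erase hl) p.1 p.2]]

lemma prod_one' {r : ι → Z → ℝ} (h : ∀ l, ∑ z, r l z = 1) : ∑ w : ι → Z, ∏ l, r l (w l) = 1 := by
  rw [← Fintype.prod_sum]; simp [h]

lemma shapley (E : Finset ι) (Φ : Finset ι → ℝ) :
    ∑ U ∈ E.powerset, ∑ i ∈ E \ U, ((#U)! * (#E - 1 - #U)! : ℝ) * (Φ U - Φ (insert i U)) =
      (#E)! * (Φ ∅ - Φ E) := by
  have a : ∑ U ∈ E.powerset, ∑ i ∈ E \ U, ((#U)! * (#E - 1 - #U)! : ℝ) * Φ (insert i U) =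
      ∑ U ∈ E.powerset, ∑ _i ∈ U, ((#U - 1)! * (#E - #U)! : ℝ) * Φ U := by
    rw [sum_sigma', sum_sigma']
    refine sum_bij' (fun p _ => ⟨insert p.2 p.1, p.2⟩) (fun p _ => ⟨p.1.erase p.2, p.2⟩) ?_ ?_ ?_ ?_ ?_ <;>
      simp only [mem_sigma, mem_powerset, mem_sdiff]
    · exact fun p h => ⟨insert_subset h.2.1 h.1, mem_insert_self _ _⟩
    · exact fun p h => ⟨(erase_subset _ _).trans h.1, h.1 h.2, notMem_erase _ _⟩
    · exact fun p h => by rw [erase_insert h.2.2]
    · exact fun p h => by rw [insert_erase h.2]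
    · exact fun p h => by rw [card_insert_of_notMem h.2.2, Nat.add_sub_cancel, Nat.sub_sub, add_comm 1]
  simp only [mul_sub, sum_sub_distrib, a, sum_const, nsmul_eq_mul]
  rw [← sum_sub_distrib, sum_congr rfl (g := fun U => (if U = ∅ then (#E)! * Φ ∅ else 0) -
    if U = E then (#E)! * Φ E else 0) fun U hU => ?_]
  · simp
  have hU := mem_powerset.1 hU
  have b : (#(E \ U) : ℝ) * ((#U)! * (#E - 1 - #U)!) = if U = E then 0 else ((#U)! * (#E - #U)! : ℝ) := by
    split_ifs with c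
    · simp [c]
    have := card_lt_card (lt_of_le_of_ne hU c)
    rw [card_sdiff_of_subset hU, show #E - #U = #E - 1 - #U + 1 by omega, Nat.factorial_succ]
    push_cast; ring
  have c : (#U : ℝ) * ((#U - 1)! * (#E - #U)!) = if U = ∅ then 0 else ((#U)! * (#E - #U)! : ℝ) := by
    split_ifs with c
    · simp [c]
    rw [← mul_assoc, ← Nat.cast_mul, Nat.mul_factorial_pred (card_ne_zero.2 (nonempty_iff_ne_empty.2 c))]
  rw [← mul_assoc _ _ (Φ U), ← mul_assoc _ _ (Φ U), b, c]
  split_ifs <;> simp_all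

/-- sum over contexts -/
def TS (D : Finset ι) (f : ι → Finset ι → Finset ι → ℝ) : ℝ :=
  ∑ V ∈ D.powerset, ∑ U ∈ (D \ V).powerset, ∑ i ∈ (D \ V) \ U,
    ((#V)! * ((#U)! * (#D - 1 - #U - #V)!) : ℝ) * f i U V

def TB (D : Finset ι) : ℝ := ∑ V ∈ D.powerset, (#V)! * (#(D \ V))!

lemma TB_pos (D : Finset ι) : 0 < TB D :=
  sum_pos (fun _ _ => by positivity) ⟨∅, empty_mem_powerset _⟩

lemma TS_swap (D : Finset ι) (f : ι → Finset ι → Finset ι → ℝ) : TS D f = TS D fun i U V => f i V U := by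
  unfold TS
  rw [sum_comm' (t' := D.powerset) (s' := fun U => (D \ U).powerset) fun V U => by
    simp only [mem_powerset, subset_sdiff]
    exact ⟨fun h => ⟨⟨h.1, h.2.2.symm⟩, h.2.1⟩, fun h => ⟨h.1.1, h.2, h.1.2.symm⟩⟩]
  refine sum_congr rfl fun U _ => sum_congr rfl fun V _ => ?_
  rw [sdiff_right_comm, Nat.sub_right_comm _ #U]
  exact sum_congr rfl fun i _ => by ring

lemma TS_eq (D : Finset ι) (f : ι → Finset ι → Finset ι → ℝ) : TS D f = ∑ V ∈ D.powerset, (#V)! *
    ∑ U ∈ (D \ V).powerset, ∑ i ∈ (D \ V) \ U, ((#U)! * (#(D \ V) - 1 - #U)! : ℝ) * f i U V := by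
  simp only [TS, mul_sum, mul_assoc]
  refine sum_congr rfl fun V hV => ?_
  simp only [card_sdiff_of_subset (mem_powerset.1 hV), Nat.sub_right_comm _ _ #V]

lemma TS_const (D : Finset ι) (x : ι → ℝ) : 2 * TS D (fun i _ _ => x i) = TB D * ∑ i ∈ D, x i := by
  have a : TS D (fun i _ _ => x i) = ∑ V ∈ D.powerset, (#V)! * (#(D \ V))! * ∑ i ∈ D \ V, x i := by
    rw [TS_eq]
    refine sum_congr rfl fun V _ => ?_
    have := shapley (D \ V) fun U => -∑ i ∈ U, x i
    rw [sum_congr rfl fun U _ => sum_congr rfl fun i hi => by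
      rw [sum_insert (mem_sdiff.1 hi).2, show ∀ a b : ℝ, -a - -(b + a) = b from fun a b => by ring]] at this
    rw [this]; simp [mul_assoc]
  have b : TS D (fun i _ _ => x i) = ∑ V ∈ D.powerset, (#V)! * (#(D \ V))! * ∑ i ∈ V, x i := by
    rw [a]
    refine sum_bij' (fun V _ => D \ V) (fun V _ => D \ V) ?_ ?_ ?_ ?_ ?_ <;> simp only [mem_powerset]
    · exact fun _ _ => sdiff_subset
    · exact fun _ _ => sdiff_subset
    · exact fun _ h => Finset.sdiff_sdiff_eq_self h
    · exact fun _ h => Finset.sdiff_sdiff_eq_self h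
    · exact fun _ h => by rw [Finset.sdiff_sdiff_eq_self h]; ring
  rw [two_mul, TB, sum_mul]
  nth_rewrite 1 [a]
  rw [b, ← sum_add_distrib]
  exact sum_congr rfl fun V hV => by rw [← mul_add, sum_sdiff (mem_powerset.1 hV)]

lemma TS_mono {D : Finset ι} {f g h : ι → Finset ι → Finset ι → ℝ} {c : ℝ}
    (H : ∀ i U V, i ∈ D → U ⊆ D → V ⊆ D → Disjoint U V → i ∉ U → i ∉ V →
      f i U V ≤ c * (g i U V + h i U V)) : TS D f ≤ c * (TS D g + TS D h) := by
  simp only [TS, mul_sum, ← sum_add_distrib]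
  refine sum_le_sum fun V hV => sum_le_sum fun U hU => sum_le_sum fun i hi => ?_
  simp only [mem_powerset, subset_sdiff, mem_sdiff] at hV hU hi
  rw [← mul_add, mul_left_comm c]
  exact mul_le_mul_of_nonneg_left (H i U V hi.1.1 hU.1 hV hU.2 hi.2 hi.1.2) (by positivity)

variable (μ : Z → ℝ) (π : Z → X)

def PP (w : ι → Z) : ℝ := ∏ l, μ (w l)

def qk (z z' : Z) : ℝ := if π z' = π z then μ z' / ∑ u with π u = π z, μ u else 0

variable {α : Type} [Fintype α] [DecidableEq α]

def av (U : Finset ι) (F : (ι → Z) → Matrix α α ℂ) (w : ι → Z) : Matrix α α ℂ :=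
  ∑ w' : ι → Z, (∏ l, if l ∈ U then qk μ π (w l) (w' l) else μ (w' l)) • F (U.piecewise w' w)

/-- invariance under changes of the coordinates in `E` within the fibres of `π` -/
def Inv {T : Type*} (E : Finset ι) (F : (ι → Z) → T) : Prop :=
  ∀ i ∈ E, ∀ w z, π z = π (w i) → F (update w i z) = F w

variable {μ π}

lemma qk_ne {z z' : Z} (h : qk μ π z z' ≠ 0) : π z' = π z := by
  by_contra c; exact h (if_neg c)

lemma qk_dep {z z' : Z} (h : π z = π z') : qk μ π z = qk μ π z' := by ext; simp only [qk, h]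

lemma av_upd {U : Finset ι} {i : ι} (h : i ∉ U) (F : (ι → Z) → Matrix α α ℂ) (w : ι → Z) (z : Z) :
    av μ π U F (update w i z) = av μ π U (fun w => F (update w i z)) w := by
  refine sum_congr rfl fun w' _ => ?_
  dsimp only
  rw [update_piecewise_of_notMem _ _ _ h]
  congr 1
  exact prod_congr rfl fun l _ => by
    split_ifs with c
    · rw [update_of_ne (ne_of_mem_of_not_mem c h)]
    · rfl

lemma av_inv (U : Finset ι) (F : (ι → Z) → Matrix α α ℂ) : Inv π U (av μ π U F) := fun i h w z e => by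
  refine sum_congr rfl fun w' _ => ?_
  congr 1
  · refine prod_congr rfl fun l _ => ?_
    by_cases c : l = i
    · rw [c, update_self, qk_dep e]
    · rw [update_of_ne c]
  · congr 1; ext l
    by_cases c : l ∈ U
    · simp [c]
    · simp [c, update_of_ne (ne_of_mem_of_not_mem h c).symm]

lemma av_inv' {X' : Type} {π' : Z → X'} {U E : Finset ι} (h : Disjoint U E) {F : (ι → Z) → Matrix α α ℂ}
    (hF : Inv π' univ F) : Inv π' E (av μ π U F) := fun i hi w z e => by
  have := disjoint_right.1 h hi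
  rw [av_upd this]
  exact sum_congr rfl fun w' _ => by
    dsimp only; rw [hF i (mem_univ _) _ z (by simpa [this] using e)]

lemma av_sum {I : Type*} (s : Finset I) (U : Finset ι) (F : I → (ι → Z) → Matrix α α ℂ) (w : ι → Z) :
    av μ π U (fun w => ∑ a ∈ s, F a w) w = ∑ a ∈ s, av μ π U (F a) w := by
  simp only [av, smul_sum]; rw [sum_comm]

variable (h0 : ∀ z, 0 < μ z) (h1 : ∑ z, μ z = 1)
include h0

lemma PP_pos (w : ι → Z) : 0 < PP μ w := prod_pos fun _ _ => h0 _

lemma mg_pos (z : Z) : 0 < ∑ u with π u = π z, μ u := sum_pos (fun _ _ => h0 _) ⟨z, by simp⟩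

lemma qk_nonneg (z z' : Z) : 0 ≤ qk μ π z z' := by
  unfold qk; split_ifs
  · exact div_nonneg (h0 _).le (mg_pos h0 z).le
  · rfl

lemma qk_sum (z : Z) : ∑ z', qk μ π z z' = 1 := by
  simp only [qk]; rw [← sum_filter, ← sum_div, div_self (mg_pos h0 z).ne']

lemma qk_stat (z' : Z) : ∑ z, μ z * qk μ π z z' = μ z' := by
  rw [sum_congr rfl (g := fun z => if π z = π z' then μ z * (μ z' / ∑ u with π u = π z', μ u) else 0)
    fun z _ => by by_cases c : π z = π z' <;> simp [qk, c, eq_comm (a := π z')], ← sum_filter,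
    ← sum_mul, mul_div_cancel₀ _ (mg_pos h0 z').ne']

lemma av_psd (U : Finset ι) {F : (ι → Z) → Matrix α α ℂ} (hF : ∀ w, (F w).PosSemidef) (w : ι → Z) :
    (av μ π U F w).PosSemidef :=
  posSemidef_sum _ fun w' _ => psd_smul (hF _) (prod_nonneg fun l _ => by
    split_ifs; exacts [qk_nonneg h0 _ _, (h0 _).le])

include h1

lemma av_const (U : Finset ι) (A : Matrix α α ℂ) (w : ι → Z) : av μ π U (fun _ => A) w = A := by
  rw [av, ← sum_smul, prod_one' (r := fun l z => if l ∈ U then qk μ π (w l) z else μ z) fun l => by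
    split_ifs; exacts [qk_sum h0 _, h1], one_smul]

lemma av_empty (F : (ι → Z) → Matrix α α ℂ) (w : ι → Z) : av μ π ∅ F w = F w := by
  simpa only [av, piecewise_empty] using av_const h0 h1 (π := π) ∅ (F w) w

lemma av_sub (U : Finset ι) {F : (ι → Z) → Matrix α α ℂ} (hF : ∀ w, (1 - F w).PosSemidef) (w : ι → Z) :
    (1 - av μ π U F w).PosSemidef := by
  have := av_psd h0 (π := π) U hF w
  rw [← av_const h0 h1 (π := π) U 1 w]
  simpa only [av, smul_sub, sum_sub_distrib] using this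

omit h0 in
lemma av_insert {U : Finset ι} {i : ι} (h : i ∉ U) (F : (ι → Z) → Matrix α α ℂ) (w : ι → Z) :
    av μ π (insert i U) F w = ∑ z, qk μ π (w i) z • av μ π U F (update w i z) := by
  rw [av, resample (r := fun l z => if l ∈ insert i U then qk μ π (w l) z else μ z)
    (r' := fun l z => if l ∈ U then qk μ π (w l) z else μ z) i (fun l hl => by simp [hl])
    (by simpa [h] using h1)]
  refine sum_congr rfl fun z _ => ?_
  rw [if_pos (mem_insert_self _ _), av_upd h]
  congr 1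
  refine sum_congr rfl fun w' _ => ?_
  dsimp only
  rw [piecewise_insert, update_self, update_piecewise, update_piecewise, update_idem]

omit h0 in
lemma PP_res (i : ι) (Φ : (ι → Z) → ℝ) :
    ∑ w, PP μ w * Φ w = ∑ z, μ z * ∑ w, PP μ w * Φ (update w i z) :=
  resample (r := fun _ => μ) (r' := fun _ => μ) i (fun _ _ => rfl) h1 Φ

lemma PP_stat (i : ι) (Φ : (ι → Z) → ℝ) :
    ∑ w, PP μ w * Φ w = ∑ w, PP μ w * ∑ z, qk μ π (w i) z * Φ (update w i z) := by
  rw [PP_res h1 i, PP_res h1 i fun w => ∑ z, qk μ π (w i) z * Φ (update w i z)]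
  rw [sum_congr rfl fun z _ => by rw [← qk_stat h0 (π := π) z, sum_mul], sum_comm]
  refine sum_congr rfl fun z _ => ?_
  simp only [update_self, update_idem, mul_sum]
  rw [sum_comm]
  exact sum_congr rfl fun w _ => sum_congr rfl fun z' _ => by ring

lemma av_fac {U : Finset ι} (F : (ι → Z) → Matrix α α ℂ) {σ : (ι → Z) → Matrix α α ℂ} (h : Inv π U σ) :
    ∑ w, PP μ w * rt (av μ π U F w * σ w) = ∑ w, PP μ w * rt (F w * σ w) := by
  induction U using Finset.induction_on with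
  | empty => simp only [av_empty h0 h1]
  | insert i U hi ih =>
    rw [← ih fun l hl => h l (mem_insert_of_mem hl), PP_stat h0 h1 (π := π) i fun w =>
      rt (av μ π U F w * σ w)]
    refine sum_congr rfl fun w _ => ?_
    rw [av_insert h1 hi, sum_mul, rt_sum]
    congr 1
    refine sum_congr rfl fun z _ => ?_
    rw [smul_mul_assoc, rt_smul]
    by_cases c : qk μ π (w i) z = 0
    · simp [c]
    · rw [h i (mem_insert_self _ _) w z (qk_ne c)]

theorem exists_WF (π : Z → X) {I : Type} [Fintype I] (F : I → (ι → Z) → Matrix α α ℂ)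
    (hF : ∀ a w, (F a w).PosSemidef) (hF' : ∀ a w, (1 - F a w).PosSemidef) :
    ∃ (γ : Type) (_ : Fintype γ) (_ : DecidableEq γ) (W : Matrix α α ℂ → Matrix γ α ℂ),
      (∀ U a w, (W (av μ π U (F a) w))ᴴ * W (av μ π U (F a) w) = av μ π U (F a) w) ∧
      ∀ (E : Finset ι) (σ : I → (ι → Z) → Matrix α α ℂ) (c : ℝ), (∀ a w, (σ a w).PosSemidef) →
        (∀ a, Inv π E (σ a)) →
        ∑ U ∈ E.powerset, ∑ i ∈ E \ U, ((#U)! * (#E - 1 - #U)! : ℝ) * ∑ w, PP μ w * ∑ a,
          rt ((W (av μ π U (F a) w) - W (av μ π (insert i U) (F a) w))ᴴ *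
            (W (av μ π U (F a) w) - W (av μ π (insert i U) (F a) w)) * σ a w) ≤
        (#E)! * ((c - 1) * ∑ a, ∑ w, PP μ w * rt (F a w * σ a w) +
          Real.exp (-c) * ∑ a, ∑ w, PP μ w * rt (σ a w)) := by
  let T := univ.image fun p : Finset ι × I × (ι → Z) => av μ π p.1 (F p.2.1) p.2.2
  have hT : ∀ U a w, av μ π U (F a) w ∈ T := fun U a w => mem_image.2 ⟨(U, a, w), mem_univ _, rfl⟩
  obtain ⟨W, w1, w2⟩ := exists_W T fun A h => by
    obtain ⟨p, -, rfl⟩ := mem_image.1 h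
    exact av_psd h0 _ (hF _) _
  refine ⟨_, _, inferInstance, W, fun U a w => w1 _ (hT U a w), fun E σ c s0 s1 => ?_⟩
  have P0 := fun w : ι → Z => (PP_pos h0 w).le
  refine (sum_le_sum fun U _ => sum_le_sum fun i hi => mul_le_mul_of_nonneg_left ?_
    (by positivity)).trans ((shapley E fun U => ∑ w, PP μ w * ∑ a,
      Phi (av μ π U (F a) w) (σ a w)).trans_le (mul_le_mul_of_nonneg_left ?_ (by positivity)))
  · obtain ⟨i1, i2⟩ := mem_sdiff.1 hi
    rw [PP_stat h0 h1 (π := π) i, PP_stat h0 h1 (π := π) i fun w => ∑ a, Phi (av μ π U (F a) w) (σ a w),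
      ← sum_sub_distrib]
    refine sum_le_sum fun w _ => ?_
    rw [← mul_sub]
    refine mul_le_mul_of_nonneg_left ?_ (P0 w)
    simp only [mul_sum]
    rw [sum_comm, sum_comm (s := (univ : Finset Z)), ← sum_sub_distrib]
    refine sum_le_sum fun a _ => ?_
    refine (sum_congr rfl fun z _ => ?_).trans_le ((w2 _ _ _ _ (qk_nonneg h0 (w i)) (qk_sum h0 _)
      (fun z => hT U a (update w i z)) (hT _ a w) (av_insert h1 i2 _ w) (s0 a w)).trans_eq ?_)
    · by_cases c : qk μ π (w i) z = 0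
      · simp [c]
      · rw [s1 a i i1 w z (qk_ne c), av_inv _ _ i (mem_insert_self _ _) w z (qk_ne c)]
    · congr 1
      refine sum_congr rfl fun z _ => ?_
      by_cases c : qk μ π (w i) z = 0
      · simp [c]
      · rw [s1 a i i1 w z (qk_ne c)]
  · have a : ∑ w, PP μ w * ∑ a, Phi (av μ π ∅ (F a) w) (σ a w) ≤ 0 :=
      sum_nonpos fun w _ => mul_nonpos_of_nonneg_of_nonpos (P0 w) (sum_nonpos fun a _ =>
        Phi_le (av_psd h0 _ (hF a) w) (av_sub h0 h1 _ (hF' a) w) (s0 a w))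
    simp only [← fun a => av_fac h0 h1 (F a) (s1 a)]
    rw [sub_eq_add_neg]
    refine (add_le_of_nonpos_left a).trans ?_
    simp only [mul_sum, ← sum_add_distrib, ← sum_neg_distrib]
    rw [sum_comm]
    refine sum_le_sum fun a _ => sum_le_sum fun w _ => ?_
    linarith [mul_le_mul_of_nonneg_left (Phi_ge (av_psd h0 (π := π) E (hF a) w) (s0 a w) c) (P0 w)]

lemma raz (D : Finset ι) {ρ : (ι → Z) → ℝ} {L : ℝ} (r0 : ∀ w, 0 < ρ w) (r1 : ∀ w, Real.log (ρ w) ≤ L)
    (r2 : ∑ w, PP μ w * ρ w = 1) :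
    ∑ i ∈ D, ∑ z, μ z * (√(∑ w, PP μ w * ρ (update w i z)) - 1) ^ 2 ≤ L := by
  set r : ι → Z → ℝ := fun i z => ∑ w, PP μ w * ρ (update w i z) with hr
  have p0 : ∀ i z, 0 < r i z := fun i z => sum_pos (fun w _ => mul_pos (PP_pos h0 w) (r0 _))
    ⟨fun _ => z, mem_univ _⟩
  have p1 : ∀ i, ∑ z, μ z * r i z = 1 := fun i => by rw [← r2, PP_res h1 i]
  have p2 : ∑ w, PP μ w * ∏ i ∈ D, r i (w i) = 1 := by
    rw [← prod_one' (r := fun l z => μ z * if l ∈ D then r l z else 1) fun l => by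
      split_ifs; exacts [p1 l, by simpa using h1]]
    simp only [prod_mul_distrib, PP, prod_ite_mem, univ_inter]
  have p3 : ∀ i, ∑ z, μ z * (√(r i z) - 1) ^ 2 ≤ ∑ w, PP μ w * (ρ w * Real.log (r i (w i))) := fun i => by
    rw [PP_res h1 i, ← add_le_add_iff_right (∑ z, μ z * r i z), ← sub_le_iff_le_add]
    nth_rewrite 2 [p1]
    rw [← h1, ← sum_add_distrib, ← sum_sub_distrib]
    refine sum_le_sum fun z _ => ?_
    simp only [update_self, ← mul_assoc, ← sum_mul]
    have a := Real.sqrt_pos.2 (p0 i z)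
    have b := mul_le_mul_of_nonneg_left (Real.one_sub_inv_le_log_of_pos a) (sq_nonneg √(r i z))
    rw [Real.log_sqrt (p0 i z).le, mul_sub, sq √_, mul_inv_cancel_right₀ a.ne', ← sq,
      Real.sq_sqrt (p0 i z).le] at b
    have := mul_le_mul_of_nonneg_left b (h0 z).le
    rw [sub_sq, Real.sq_sqrt (p0 i z).le, h1]
    linarith
  refine (sum_le_sum fun i _ => p3 i).trans ?_
  rw [sum_comm, ← mul_one L, ← r2, mul_sum, ← sub_zero (∑ w, L * _), ← sub_self (1 : ℝ)]
  nth_rewrite 1 [← r2]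
  rw [← p2, ← sum_sub_distrib, ← sum_sub_distrib]
  refine sum_le_sum fun w _ => ?_
  have a : 0 < ∏ i ∈ D, r i (w i) := prod_pos fun i _ => p0 _ _
  have b := mul_le_mul_of_nonneg_left (Real.log_le_sub_one_of_pos (div_pos a (r0 w))) (r0 w).le
  rw [Real.log_div a.ne' (r0 w).ne', Real.log_prod fun i _ => (p0 _ _).ne', mul_sub _ (_ / _),
    mul_div_cancel₀ _ (r0 w).ne'] at b
  rw [← mul_sum, ← mul_sum]
  nlinarith [mul_le_mul_of_nonneg_left b (PP_pos h0 w).le,
    mul_le_mul_of_nonneg_left (r1 w) (mul_pos (PP_pos h0 w) (r0 w)).le]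

end

end Crest.Agent.H0536
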