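import Mathlib

set_option autoImplicit false
open Finset Real

namespace Crest.Agent.H0536

noncomputable section

def cs (w : ℝ) : ℝ := cos (π / 2 * min |w| 1)

lemma cs_lip (a b : ℝ) : |cs a - cs b| ≤ 2 * |a - b| := by
  refine (abs_cos_sub_cos_le _ _).trans ?_
  rw [← mul_sub, abs_mul, abs_of_pos (by positivity)]
  refine mul_le_mul (by linarith [pi_le_four]) ((abs_min_sub_min_le_max _ _ _ _).trans ?_)
    (abs_nonneg _) zero_le_two
  simpa using abs_abs_sub_abs_le a b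

lemma cs_ne {w : ℝ} (h : cs w ≠ 0) : |w| < 1 := by
  by_contra c
  exact h (by rw [cs, min_eq_right (not_lt.1 c), mul_one, cos_pi_div_two])

lemma cs_sum (u : ℝ) : cs (u - ⌊u⌋) ^ 2 + cs (u - (⌊u⌋ + 1 : ℤ)) ^ 2 = 1 := by
  have a := Int.floor_le u
  have b := Int.lt_floor_add_one u
  push_cast
  rw [cs, cs, abs_of_nonneg (by linarith), abs_of_nonpos (by linarith), min_eq_left (by linarith),
    min_eq_left (by linarith), show π / 2 * -(u - (⌊u⌋ + 1)) = π / 2 - π / 2 * (u - ⌊u⌋) by ring,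
    cos_pi_div_two_sub, cos_sq_add_sin_sq]

def ph (ρ : ℝ) (j : ℤ) (t : ℝ) : ℝ := if t = 0 then 0 else cs (log t / ρ - j)

def lam (ρ : ℝ) (j : ℤ) : ℝ := exp (ρ * j)

def lv (ρ t : ℝ) : Finset ℤ := {⌊log t / ρ⌋, ⌊log t / ρ⌋ + 1}

variable {ρ : ℝ} (h0 : 0 < ρ) (h1 : ρ ≤ 1 / 8) {J : Finset ℤ}

lemma ph_mem {j : ℤ} {t : ℝ} (h : ph ρ j t ≠ 0) : j ∈ lv ρ t := by
  unfold ph at h
  split_ifs at h
  · exact (h rfl).elim
  have := abs_lt.1 (cs_ne h)
  have a : j - 1 ≤ ⌊log t / ρ⌋ := Int.le_floor.2 (by push_cast; linarith)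
  have b : ⌊log t / ρ⌋ < j + 1 := Int.floor_lt.2 (by push_cast; linarith)
  simp only [lv, mem_insert, mem_singleton]
  omega

lemma ph_sum {t : ℝ} (hJ : lv ρ t ⊆ J) : ∑ j ∈ J, ph ρ j t ^ 2 = if t = 0 then 0 else 1 := by
  rw [← sum_subset hJ fun j _ h => by rw [not_not.1 (mt ph_mem h)]; simp, lv, sum_pair (by omega)]
  unfold ph
  split_ifs
  · simp
  · exact cs_sum _

include h0 h1

lemma ph_lam {j : ℤ} {t : ℝ} (h : ph ρ j t ≠ 0) : |lam ρ j - (|t|)| ≤ 2 * ρ * |t| := by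
  unfold ph at h
  split_ifs at h with c
  · exact (h rfl).elim
  have a := cs_ne h
  have b : |ρ * j - log t| ≤ ρ := by
    rw [show ρ * j - log t = -(ρ * (log t / ρ - j)) by field_simp; ring, abs_neg, abs_mul, abs_of_pos h0]
    exact mul_le_of_le_one_right h0.le a.le
  rw [show lam ρ j - |t| = (exp (ρ * j - log t) - 1) * |t| by
    rw [exp_sub, exp_log_eq_abs c, lam]; have := abs_pos.2 c; field_simp, abs_mul, abs_abs]
  exact mul_le_mul_of_nonneg_right ((abs_exp_sub_one_le (by linarith)).trans (by linarith))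
    (abs_nonneg _)

lemma lam_sq {j : ℤ} {t : ℝ} (h : ph ρ j t ≠ 0) : lam ρ j ^ 2 ≤ (1 + 5 * ρ) * t ^ 2 := by
  have a := (abs_le.1 (ph_lam h0 h1 h)).2
  have b : lam ρ j ^ 2 ≤ ((1 + 2 * ρ) * |t|) ^ 2 :=
    pow_le_pow_left₀ (exp_pos _).le (show lam ρ j ≤ _ by linarith) 2
  rw [mul_pow, sq_abs] at b
  exact b.trans (mul_le_mul_of_nonneg_right (by nlinarith) (sq_nonneg _))

lemma lev_sq {t : ℝ} (hJ : lv ρ t ⊆ J) : ∑ j ∈ J, (lam ρ j * ph ρ j t) ^ 2 ≤ (1 + 5 * ρ) * t ^ 2 := by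
  refine (sum_le_sum (g := fun j => (1 + 5 * ρ) * t ^ 2 * ph ρ j t ^ 2) fun j _ => ?_).trans ?_
  · by_cases c : ph ρ j t = 0
    · simp [c]
    · rw [mul_pow]; exact mul_le_mul_of_nonneg_right (lam_sq h0 h1 c) (sq_nonneg _)
  · rw [← mul_sum, ph_sum hJ]
    split_ifs
    · rw [mul_zero]; positivity
    · rw [mul_one]

lemma lev_id {t : ℝ} (hJ : lv ρ t ⊆ J) : |∑ j ∈ J, lam ρ j * ph ρ j t ^ 2 - (|t|)| ≤ 2 * ρ * |t| := by
  have := ph_sum hJ
  split_ifs at this with c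
  · simp [c, ph]
  rw [show ∑ j ∈ J, lam ρ j * ph ρ j t ^ 2 - |t| = ∑ j ∈ J, (lam ρ j - |t|) * ph ρ j t ^ 2 by
    simp only [sub_mul, sum_sub_distrib, ← mul_sum, this, mul_one], ← mul_one (_ * |t|), ← this, mul_sum]
  refine (abs_sum_le_sum_abs _ _).trans (sum_le_sum fun j _ => ?_)
  by_cases c : ph ρ j t = 0
  · simp [c]
  · rw [abs_mul, abs_sq]
    exact mul_le_mul_of_nonneg_right (ph_lam h0 h1 c) (sq_nonneg _)

lemma lev_diff {t s : ℝ} (hJ : lv ρ t ⊆ J) (hJ' : lv ρ s ⊆ J) :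
    ∑ j ∈ J, lam ρ j ^ 2 * (ph ρ j t - ph ρ j s) ^ 2 ≤ 128 / ρ ^ 2 * (t - s) ^ 2 := by
  wlog h : |s| ≤ |t| generalizing t s
  · have := this hJ' hJ (not_le.1 h).le
    simpa only [← neg_sub t s, ← neg_sub (ph ρ _ t), neg_sq] using this
  have e : (|t| - |s|) ^ 2 ≤ (t - s) ^ 2 := by
    rw [← sq_abs (t - s)]
    exact pow_le_pow_left₀ (by linarith) (abs_sub_abs_le_abs_sub t s) 2
  refine le_trans ?_ (mul_le_mul_of_nonneg_left e (by positivity))
  have st : s ^ 2 ≤ t ^ 2 := sq_le_sq.2 h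
  by_cases c : 2 * |s| ≤ |t|
  · have a := lev_sq h0 h1 hJ
    have b := lev_sq h0 h1 hJ'
    have d : (32 : ℝ) ≤ 128 / ρ ^ 2 := by rw [le_div_iff₀ (by positivity)]; nlinarith
    have f : ∑ j ∈ J, lam ρ j ^ 2 * (ph ρ j t - ph ρ j s) ^ 2 ≤
        2 * ∑ j ∈ J, (lam ρ j * ph ρ j t) ^ 2 + 2 * ∑ j ∈ J, (lam ρ j * ph ρ j s) ^ 2 := by
      simp only [mul_sum, ← sum_add_distrib]
      exact sum_le_sum fun j _ => by nlinarith [sq_nonneg (lam ρ j * (ph ρ j t + ph ρ j s))]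
    have g : t ^ 2 ≤ 4 * (|t| - |s|) ^ 2 := by rw [← sq_abs t]; nlinarith [abs_nonneg s]
    nlinarith [mul_le_mul_of_nonneg_right d (sq_nonneg (|t| - |s|)), sq_nonneg s]
  have s0 : 0 < |s| := by linarith [abs_nonneg s]
  have t0 : 0 < |t| := by linarith
  have l : |log t / ρ - log s / ρ| ≤ 2 * (|t| - |s|) / (|t| * ρ) := by
    have a := log_le_sub_one_of_pos (div_pos t0 s0)
    have b := log_le_log s0 h
    rw [log_div t0.ne' s0.ne', log_abs, log_abs] at a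
    rw [log_abs, log_abs] at b
    rw [← sub_div, abs_of_nonneg (div_nonneg (by linarith) h0.le), ← div_div]
    refine div_le_div_of_nonneg_right (a.trans ?_) h0.le
    rw [div_sub_one s0.ne', div_le_div_iff₀ s0 t0]
    nlinarith
  rw [← sum_subset (inter_subset_left (s₂ := lv ρ t ∪ lv ρ s)) fun j hj hj' => by
    simp only [mem_inter, hj, true_and, mem_union, not_or] at hj'
    rw [not_not.1 (mt ph_mem hj'.1), not_not.1 (mt ph_mem hj'.2)]; simp]
  refine (sum_le_card_nsmul _ _ (32 / ρ ^ 2 * (|t| - |s|) ^ 2) fun j _ => ?_).trans ?_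
  · by_cases z : ph ρ j t = 0 ∧ ph ρ j s = 0
    · rw [z.1, z.2, sub_self, zero_pow two_ne_zero, mul_zero]; positivity
    have a : lam ρ j ^ 2 ≤ 2 * t ^ 2 := by
      rcases not_and_or.1 z with z | z <;> nlinarith [lam_sq h0 h1 z, sq_nonneg s]
    have b : |ph ρ j t - ph ρ j s| ≤ 2 * (2 * (|t| - |s|) / (|t| * ρ)) := by
      rw [ph, ph, if_neg (abs_pos.1 t0), if_neg (abs_pos.1 s0)]
      refine (cs_lip _ _).trans ?_
      rw [sub_sub_sub_cancel_right]; linarith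
    rw [← sq_abs (ph ρ j t - _)]
    refine (mul_le_mul a (pow_le_pow_left₀ (abs_nonneg _) b 2) (sq_nonneg _) (by positivity)).trans_eq ?_
    rw [← sq_abs t]; field_simp; ring
  · have : ((J ∩ (lv ρ t ∪ lv ρ s)).card : ℝ) ≤ 4 := by
      exact_mod_cast (card_le_card inter_subset_right).trans ((card_union_le _ _).trans
        (add_le_add card_le_two card_le_two))
    rw [nsmul_eq_mul]
    exact (mul_le_mul_of_nonneg_right this (by positivity)).trans_eq (by ring)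

end

end Crest.Agent.H0536
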