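import Crest.Agent.H0536.Sub
import Crest.Agent.H0536.Lev

set_option autoImplicit false
set_option linter.unusedSectionVars false
open Finset Matrix
open scoped ComplexOrder

namespace Crest.Agent.H0536

noncomputable section
open Classical

variable {Z X Y A B : Type} [Fintype Z] [Fintype A] [Fintype B] {G : Gm Z X Y A B} {v : ℝ}

def Gm.gr (G : Gm Z X Y A B) : SimpleGraph Z where
  Adj z w := z ≠ w ∧ (G.px z = G.px w ∨ G.py z = G.py w)
  symm := ⟨fun _ _ h => ⟨h.1.symm, h.2.imp Eq.symm Eq.symm⟩⟩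
  loopless := ⟨fun _ h => h.1 rfl⟩

def Gm.comp (G : Gm Z X Y A B) (z : Z) : Finset Z := univ.filter (G.gr.Reachable z)

lemma comp_eq {z w : Z} (h : G.gr.Reachable z w) : G.comp z = G.comp w := by
  ext u; simp only [Gm.comp, mem_filter, mem_univ, true_and]
  exact ⟨h.symm.trans, h.trans⟩

lemma reach_of {z w : Z} (h : G.px z = G.px w ∨ G.py z = G.py w) : G.gr.Reachable z w := by
  by_cases c : z = w
  · rw [c]
  · exact SimpleGraph.Adj.reachable ⟨c, h⟩

lemma round_sum {w c : ℝ} {f s E : Z → ℝ} {η : ℝ} (hη : 0 ≤ η) (hv : v ≤ 1) (h : ∑ z, G.μ z * s z ≤ v)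
    (hf : ∀ z, f z ≤ (1 + η) * s z + w + c * E z) :
    ∑ z, G.μ z * f z ≤ v + η + w + c * ∑ z, G.μ z * E z := by
  refine (sum_le_sum fun z _ => mul_le_mul_of_nonneg_left (hf z) (G.pos z).le).trans ?_
  simp only [mul_add, sum_add_distrib, mul_left_comm (G.μ _), ← mul_sum, ← sum_mul, G.sum]
  nlinarith

lemma nq_le_fn {α β : Type} [Fintype α] [Fintype β] (K : Matrix α β ℂ) {η : ℝ} (h : 0 < η) :
    nq K ≤ 1 + η + (1 + 1 / η) * (fn K - 1) ^ 2 := by
  simpa [fn_sq] using sq_add_le 1 (fn K - 1) h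

theorem round_one (h : HV G v) (hv : v ≤ 1) {κ η : ℝ} (k0 : 0 ≤ κ) (h0 : 0 < η) (h1 : η ≤ 1 / 8)
    (hκ : ∀ z, ∀ w ∈ G.comp z, 8 * ((G.comp z).card - 1 : ℝ) * ∑ u ∈ G.comp z, G.μ u ≤ κ * G.μ w) :
    Round G (v + 4 * η) (4 * (1 + κ) / η) := by
  intro α β _ _ _ _ Ψ Θ Θ' M N hM hN hΘ hΘ'
  have ne : ∀ z, (G.comp z).Nonempty := fun z => ⟨z, by simp [Gm.comp]⟩
  let rep : Z → Z := fun z => (ne z).choose
  have r1 : ∀ z, G.gr.Reachable z (rep z) := fun z => (mem_filter.1 (ne z).choose_spec).2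
  have r2 : ∀ z w, G.gr.Reachable z w → rep z = rep w := fun z w e => by simp only [rep, comp_eq e]
  have isF : ∀ {X A α : Type} [Fintype A] [Fintype α] [DecidableEq α] {π : Z → X}
      {M : Z → A → Matrix α α ℂ}, IsM π M → (∀ z w, π z = π w → rep z = rep w) → ∀ c,
      IsF π (fun z a => if c = rep z then M z a else 0) fun z => if c = rep z then 0 else 1 :=
    fun hM hr c => ⟨fun z a => by split_ifs; exacts [hM.psd z a, PosSemidef.zero],
      fun z => by split_ifs; exacts [PosSemidef.zero, PosSemidef.one],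
      fun z => by split_ifs <;> simp [hM.sub z, PosSemidef.zero],
      fun z w e => by simp only [hr z w e, hM.dep z w e, and_self]⟩
  have s := h.sub (blockDiagonal Ψ) (isF_bd (isF hM fun z w e => r2 z w (reach_of (Or.inl e))))
    (isF_bd (isF hN fun z w e => r2 z w (reach_of (Or.inr e))))
  have e1 : ∀ z, ∑ c, val G (Ψ c) (fun z a => if c = rep z then M z a else 0)
      (fun z a => if c = rep z then N z a else 0) z = val G (Ψ (rep z)) M N z := fun z => by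
    rw [sum_eq_single (rep z) (fun c _ hc => by simp [val, hc, ev_zero_l]) (by simp)]
    simp [val]
  have e2 : ∀ z, ∑ c, nq (Ψ c) - ∑ c, ev (Ψ c) (if c = rep z then 0 else 1) (if c = rep z then 0 else 1) =
      nq (Ψ (rep z)) := fun z => by
    rw [← sum_sub_distrib, sum_eq_single (rep z) (fun c _ hc => by simp [hc, ev_one]) (by simp)]
    simp [ev_zero_l]
  simp only [val_bd, nq_bd, ev_bd, e1, e2] at s
  have i1 : 1 + 1 / η ≤ 9 / 8 / η := by rw [le_div_iff₀ h0, add_mul, one_div_mul_cancel h0.ne']; linarith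
  have k := round_sum (f := fun z => val G (Ψ z) M N z) (w := 3 * η) (c := 1 / η)
    (E := fun z => 4 * (fn (Ψ z) - 1) ^ 2 + 4 * nq (Ψ z - Ψ (rep z))) h0.le hv s fun z => by
      have a1 := val_add_le (Ψ z) (Ψ (rep z)) hM hN z h0
      have a2 := nq_add_le (Ψ z) (Ψ (rep z) - Ψ z) h0
      have a3 := nq_le_fn (Ψ z) h0
      have a4 := val_le (z := z) (Ψ (rep z)) hM.toF hN.toF
      rw [add_sub_cancel, nq_sub_comm] at a2
      rw [ev_zero_l, sub_zero] at a4
      have d0 := nq_nonneg (Ψ z - Ψ (rep z))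
      have d1 := sq_nonneg (fn (Ψ z) - 1)
      have b1 := mul_le_mul_of_nonneg_right i1 d0
      have b2 := mul_le_mul_of_nonneg_right i1 d1
      have := le_div_add (val_nonneg (Ψ (rep z)) (hM.psd z) (hN.psd z)) a4
        (c := 17 / 8 * η + 1 / η * (3 / 2 * (fn (Ψ z) - 1) ^ 2 + 9 / 8 * nq (Ψ z - Ψ (rep z))))
        (by
          have := mul_le_mul_of_nonneg_left (a3.trans (add_le_add_right b2 _)) (by linarith : 0 ≤ 1 + η)
          have := mul_le_mul_of_nonneg_right (show 1 + η ≤ 9 / 8 by linarith)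
            (by positivity : 0 ≤ 9 / 8 / η * (fn (Ψ z) - 1) ^ 2)
          have : 0 ≤ 1 / η * (fn (Ψ z) - 1) ^ 2 := by positivity
          ring_nf at *
          nlinarith) (by positivity)
      have c1 := mul_le_mul_of_nonneg_left this (by linarith : 0 ≤ 1 + η)
      have c2 := mul_le_mul_of_nonneg_right (show 1 + η ≤ 9 / 8 by linarith) (by positivity : 0 ≤
        17 / 8 * η + 1 / η * (3 / 2 * (fn (Ψ z) - 1) ^ 2 + 9 / 8 * nq (Ψ z - Ψ (rep z))))
      have : 0 ≤ 1 / η * (fn (Ψ z) - 1) ^ 2 := by positivity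
      have : 0 ≤ 1 / η * nq (Ψ z - Ψ (rep z)) := by positivity
      ring_nf at *
      linarith
  set E : Z → ℝ := fun z => nq (Ψ z - Θ z) + nq (Ψ z - Θ' z) with hE
  have E0 : ∀ z, 0 ≤ E z := fun z => add_nonneg (nq_nonneg _) (nq_nonneg _)
  have w1 : ∀ {u w : Z} (p : G.gr.Walk u w),
      fn (Ψ u - Ψ w) ≤ 2 * (p.support.map fun t => √(E t)).sum - √(E u) := fun p => by
    induction p with
    | @nil u => simp [fn, nq, rt]; linarith [Real.sqrt_nonneg (E u)]
    | @cons u u' w e p ih =>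
      have a : fn (Ψ u - Ψ u') ≤ √(E u) + √(E u') := by
        rcases e.2 with c | c
        · refine (fn_tri _ (Θ u) _).trans (add_le_add (Real.sqrt_le_sqrt (le_add_of_nonneg_right
            (nq_nonneg _))) (Real.sqrt_le_sqrt ?_))
          rw [nq_sub_comm, hΘ u u' c]; exact le_add_of_nonneg_right (nq_nonneg _)
        · refine (fn_tri _ (Θ' u) _).trans (add_le_add (Real.sqrt_le_sqrt (le_add_of_nonneg_left
            (nq_nonneg _))) (Real.sqrt_le_sqrt ?_))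
          rw [nq_sub_comm, hΘ' u u' c]; exact le_add_of_nonneg_left (nq_nonneg _)
      simp only [SimpleGraph.Walk.support_cons, List.map_cons, List.sum_cons]
      linarith [fn_tri (Ψ u) (Ψ u') (Ψ w)]
  have w2 : ∀ z, nq (Ψ z - Ψ (rep z)) ≤ 8 * ((G.comp z).card - 1 : ℝ) * ∑ u ∈ G.comp z, E u := fun z => by
    have S0 : 0 ≤ ∑ u ∈ G.comp z, E u := sum_nonneg fun u _ => E0 u
    by_cases c : z = rep z
    · rw [← c, sub_self, show nq (0 : Matrix α β ℂ) = 0 by simp [nq, rt]]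
      have : (1 : ℝ) ≤ (G.comp z).card := by exact_mod_cast (ne z).card_pos
      exact mul_nonneg (by linarith) S0
    have c2 : (2 : ℝ) ≤ (G.comp z).card := by
      exact_mod_cast one_lt_card.2 ⟨z, by simp [Gm.comp], rep z, (ne z).choose_spec, c⟩
    obtain ⟨p, hp⟩ := (r1 z).exists_isPath
    have a := w1 p
    rw [← List.sum_toFinset _ hp.support_nodup] at a
    have b : ∑ t ∈ p.support.toFinset, √(E t) ≤ ∑ t ∈ G.comp z, √(E t) :=
      sum_le_sum_of_subset_of_nonneg (fun t ht => mem_filter.2 ⟨mem_univ _,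
        ⟨p.takeUntil t (List.mem_toFinset.1 ht)⟩⟩) fun _ _ _ => Real.sqrt_nonneg _
    have d := sq_sum_le_card_mul_sum_sq (s := G.comp z) (f := fun t => √(E t))
    simp only [Real.sq_sqrt (E0 _)] at d
    have f := pow_le_pow_left₀ (fn_nonneg _) (a.trans (show _ ≤ 2 * ∑ t ∈ G.comp z, √(E t) by
      linarith [Real.sqrt_nonneg (E z)])) 2
    rw [fn_sq] at f
    nlinarith
  have w3 : ∑ z, G.μ z * nq (Ψ z - Ψ (rep z)) ≤ κ * ∑ z, G.μ z * E z := by
    refine (sum_le_sum fun z _ => mul_le_mul_of_nonneg_left (w2 z) (G.pos z).le).trans ?_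
    simp only [mul_sum]
    rw [sum_comm' (t' := univ) (s' := G.comp) (by
      simp only [Gm.comp, mem_filter, mem_univ, true_and, and_true]
      exact fun x y => ⟨.symm, .symm⟩)]
    refine sum_le_sum fun u _ => ?_
    rw [sum_congr rfl fun z hz => by rw [← comp_eq (mem_filter.1 hz).2], ← sum_mul, ← mul_assoc]
    nlinarith [mul_le_mul_of_nonneg_right (hκ u u (by simp [Gm.comp])) (E0 u)]
  have p1 : 0 ≤ ∑ z, G.μ z * (fn (Ψ z) - 1) ^ 2 :=
    sum_nonneg fun z _ => mul_nonneg (G.pos z).le (sq_nonneg _)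
  have p2 : 0 ≤ ∑ z, G.μ z * E z := sum_nonneg fun z _ => mul_nonneg (G.pos z).le (E0 z)
  refine k.trans ?_
  simp only [add_assoc (_ ^ 2), mul_add (G.μ _) (_ ^ 2), mul_add (G.μ _) (4 * _), sum_add_distrib,
    mul_left_comm (G.μ _) 4, ← mul_sum]
  have := mul_le_mul_of_nonneg_left (show 4 * ∑ z, G.μ z * (fn (Ψ z) - 1) ^ 2 + 4 * ∑ z, G.μ z *
    nq (Ψ z - Ψ (rep z)) ≤ 4 * (1 + κ) * (∑ z, G.μ z * (fn (Ψ z) - 1) ^ 2 + ∑ z, G.μ z * E z) by
      nlinarith) (by positivity : 0 ≤ 1 / η)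
  linear_combination this

section two
variable {α β γ : Type} [Fintype α] [DecidableEq α] [Fintype β] [DecidableEq β] [Fintype γ]
  [DecidableEq γ] {J : Type} [Fintype J] [DecidableEq J]

def hc (H : J → Matrix α γ ℂ) : Matrix α (γ × J) ℂ := of fun a p => H p.2 a p.1

def dg (γ : Type) [DecidableEq γ] (l : J → ℝ) : Matrix (γ × J) (γ × J) ℂ := diagonal fun p => l p.2

lemma hc_mul (H : J → Matrix α γ ℂ) (H' : J → Matrix β γ ℂ) : hc H * (hc H')ᴴ = ∑ j, H j * (H' j)ᴴ := by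
  ext a b
  simp only [hc, mul_apply, Matrix.sum_apply, Fintype.sum_prod_type_right, of_apply, conjTranspose_apply]

lemma hc_dg (H : J → Matrix α γ ℂ) (l : J → ℝ) : hc H * dg γ l = hc fun j => l j • H j := by
  ext a b
  simp [hc, dg, mul_comm]

lemma dg_ct (l : J → ℝ) : (dg γ l)ᴴ = dg γ l := by simp [dg, diagonal_conjTranspose, Pi.star_def]

lemma hc_sub (H H' : J → Matrix α γ ℂ) : hc H - hc H' = hc fun j => H j - H' j := rfl

lemma nq_hc (H : J → Matrix α γ ℂ) : nq (hc H) = ∑ j, nq (H j) := by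
  rw [← nq_ct, nq, conjTranspose_conjTranspose, hc_mul, rt_sum]
  simp only [nq, rt_comm (H _)]

def jA (α β : Type) [DecidableEq α] : Matrix α (α ⊕ β) ℂ := fromCols 1 0
def jB (α β : Type) [DecidableEq β] : Matrix β (α ⊕ β) ℂ := fromCols 0 1
def dil (K : Matrix α β ℂ) : Matrix (α ⊕ β) (α ⊕ β) ℂ := fromBlocks 0 K Kᴴ 0

lemma dil_herm (K : Matrix α β ℂ) : (dil K).IsHermitian := by
  simp [dil, IsHermitian, fromBlocks_conjTranspose]

lemma jA_iso : jA α β * (jA α β)ᴴ = 1 := by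
  simp [jA, conjTranspose_fromCols_eq_fromRows_conjTranspose, fromCols_mul_fromRows]
lemma jB_iso : jB α β * (jB α β)ᴴ = 1 := by
  simp [jB, conjTranspose_fromCols_eq_fromRows_conjTranspose, fromCols_mul_fromRows]

lemma dil_AB (K : Matrix α β ℂ) : jA α β * dil K * (jB α β)ᴴ = K := by
  simp [jA, jB, dil, conjTranspose_fromCols_eq_fromRows_conjTranspose, fromCols_mul_fromBlocks,
    fromCols_mul_fromRows]

lemma nq_A (K : Matrix α β ℂ) : nq (jA α β * dil K) = nq K := by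
  simp [jA, dil, fromCols_mul_fromBlocks, nq_eq, Fintype.sum_sum_type]

lemma nq_B (K : Matrix α β ℂ) : nq (jB α β * dil K) = nq K := by
  rw [← nq_ct K]
  simp [jB, dil, fromCols_mul_fromBlocks, nq_eq, Fintype.sum_sum_type]

lemma nq_dil (K L : Matrix α β ℂ) : nq (dil K - dil L) = 2 * nq (K - L) := by
  rw [two_mul]
  nth_rewrite 2 [← nq_ct (K - L)]
  simp [dil, nq_eq, Fintype.sum_sum_type]

lemma nq_iso {E : Matrix α γ ℂ} (h : E * Eᴴ = 1) (K : Matrix γ β ℂ) : nq (E * K) ≤ nq K :=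
  nq_mul_le (psd_swap (by rw [h, sub_self]; exact PosSemidef.zero)) K

lemma nq_fc (E : Matrix α γ ℂ) (X : Matrix γ γ ℂ) (φ : ℝ → ℝ) :
    nq (E * fc X φ) = rt (fc X (fun t => φ t ^ 2) * (Eᴴ * E)) := by
  rw [nq, conjTranspose_mul, fc_ct, ← Matrix.mul_assoc, rt_comm, ← Matrix.mul_assoc,
    ← Matrix.mul_assoc, fc_mul, Matrix.mul_assoc]
  simp only [sq]

lemma lev_contr {E : Matrix α γ ℂ} (h : E * Eᴴ = 1) (X : Matrix γ γ ℂ) {φ : J → ℝ → ℝ}
    (hφ : ∀ i, ∑ j, φ j (sp X i) ^ 2 ≤ 1) :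
    (1 - (hc fun j => E * fc X (φ j))ᴴ * hc fun j => E * fc X (φ j)).PosSemidef := by
  refine psd_swap ?_
  have := ((fc_psd_iff X fun t => 1 - ∑ j, φ j t * φ j t).2 fun i => by
    simpa only [sq, sub_nonneg] using hφ i).mul_mul_conjTranspose_same E
  rw [← fc_sub, fc_one, ← fc_sum, Matrix.mul_sub, Matrix.sub_mul, Matrix.mul_one, h, Matrix.mul_sum,
    Matrix.sum_mul] at this
  simpa only [hc_mul, conjTranspose_mul, fc_ct, ← fc_mul, Matrix.mul_assoc] using this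

lemma isF_conj {π : Z → X} {M : Z → A → Matrix α α ℂ} (hM : IsM π M) {E : Z → Matrix α γ ℂ}
    (hE : ∀ z, (1 - (E z)ᴴ * E z).PosSemidef) (hd : ∀ z w, π z = π w → E z = E w) :
    IsF π (fun z a => (E z)ᴴ * M z a * E z) fun z => 1 - (E z)ᴴ * E z := by
  refine ⟨fun z a => (hM.psd z a).conjTranspose_mul_mul_same _, hE, fun z => ?_,
    fun z w e => by simp only [hd z w e, hM.dep z w e, and_self]⟩
  have := (hM.sub z).conjTranspose_mul_mul_same (E z)
  rw [Matrix.mul_sub, Matrix.sub_mul, Matrix.mul_one, Matrix.mul_sum, Matrix.sum_mul] at this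
  rwa [sub_right_comm, sub_sub_cancel]

end two

lemma arith_two {f s q P n a b S e dA dB dS η y : ℝ} (h0 : 0 < η) (h1 : η ≤ 1 / 8) (hy : y * η = 1)
    (e0 : 0 ≤ e) (A0 : 0 ≤ dA) (B0 : 0 ≤ dB) (S0 : 0 ≤ dS) (n0 : 0 ≤ n) (s0 : 0 ≤ S)
    (k1 : f ≤ (1 + η) * s + (1 + y) * dS) (k2 : ∀ c, P - 1 ≤ c → 0 ≤ c → s ≤ q + c)
    (k3 : P ≤ (1 + 5 * η) * a + (1 + 5 * η) * b - S) (k4 : a ≤ (1 + η) * n + (1 + y) * dA)
    (k5 : b ≤ (1 + η) * n + (1 + y) * dB) (k6 : n ≤ (1 + η) * S + (1 + y) * dS)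
    (k7 : n ≤ 1 + η + (1 + y) * e) (k8 : dS ≤ 2 * dA + 32 * η ^ 2 * a + 2048 * y ^ 2 * (dA + dB))
    (k9 : a ≤ 4 + 4 * e + 2 * dA) : f ≤ (1 + η) * q + 1000 * η + 20000 * y ^ 3 * (e + dA + dB) := by
  have y8 : 8 ≤ y := by nlinarith
  have y1 : 1 + y ≤ 2 * y := by linarith
  have y2 : y ≤ y ^ 3 := by nlinarith [mul_le_mul y8 y8 (by norm_num) (by linarith)]
  have c1 := mul_le_mul_of_nonneg_right y1 e0
  have c2 := mul_le_mul_of_nonneg_right y1 A0
  have c3 := mul_le_mul_of_nonneg_right y1 B0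
  have c4 := mul_le_mul_of_nonneg_right y1 S0
  have d1 : (1 - η) * n - 2 * y * dS ≤ S := by 
    have := mul_le_mul_of_nonneg_left (show n ≤ (1 + η) * S + 2 * y * dS by linarith)
      (show 0 ≤ 1 - η by linarith)
    nlinarith [mul_nonneg (sq_nonneg η) s0, mul_nonneg h0.le (mul_nonneg (show 0 ≤ y by linarith) S0)]
  have d2 : (1 + 5 * η) * (a + b) ≤ (2 + 14 * η) * n + 4 * y * (dA + dB) := by
    have := mul_le_mul_of_nonneg_left (show a + b ≤ 2 * (1 + η) * n + 2 * y * (dA + dB) by linarith)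
      (show 0 ≤ 1 + 5 * η by linarith)
    nlinarith [mul_nonneg (mul_nonneg h0.le n0) (show 0 ≤ 1 / 8 - η by linarith),
      mul_nonneg (mul_nonneg (show 0 ≤ y by linarith) (add_nonneg A0 B0)) (show 0 ≤ 1 / 8 - η by linarith)]
  have d3 : (1 + 15 * η) * n ≤ 1 + 18 * η + 6 * y * e := by
    have := mul_le_mul_of_nonneg_left (show n ≤ 1 + η + 2 * y * e by linarith)
      (show 0 ≤ 1 + 15 * η by linarith)
    nlinarith [mul_nonneg (mul_nonneg (show 0 ≤ y by linarith) e0) (show 0 ≤ 1 / 8 - η by linarith)]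
  have d4 : y * dS ≤ 128 * η + 2100 * y ^ 3 * (e + dA + dB) := by
    have := mul_le_mul_of_nonneg_left k8 (show 0 ≤ y by linarith)
    have e1 : y * (32 * η ^ 2 * a) = 32 * η * a := by linear_combination 32 * η * a * hy
    have e2 := mul_le_mul_of_nonneg_left k9 h0.le
    have e3 : 1 ≤ y ^ 3 := by linarith
    nlinarith [mul_le_mul_of_nonneg_right y2 A0, mul_le_mul_of_nonneg_right e3 A0,
      mul_le_mul_of_nonneg_right e3 e0, mul_le_mul_of_nonneg_right h1 A0,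
      mul_le_mul_of_nonneg_right h1 e0, mul_nonneg (show 0 ≤ y ^ 3 by linarith) B0]
  have p1 := mul_nonneg (show 0 ≤ y by linarith) e0
  have p2 := mul_nonneg (show 0 ≤ y by linarith) A0
  have p3 := mul_nonneg (show 0 ≤ y by linarith) B0
  have p4 := mul_nonneg (show 0 ≤ y by linarith) S0
  have := k2 (18 * η + 6 * y * e + 4 * y * (dA + dB) + 2 * y * dS) (by linarith) (by linarith)
  have d5 := mul_le_mul_of_nonneg_left this (show 0 ≤ 1 + η by linarith)
  have d6 := mul_le_mul_of_nonneg_right (show 1 + η ≤ 2 by linarith)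
    (show 0 ≤ 18 * η + 6 * y * e + 4 * y * (dA + dB) + 2 * y * dS by linarith)
  nlinarith [mul_le_mul_of_nonneg_right y2 A0, mul_le_mul_of_nonneg_right y2 B0,
    mul_le_mul_of_nonneg_right y2 e0]

theorem round_two (h : HV G v) (hv : v ≤ 1) {η : ℝ} (h0 : 0 < η) (h1 : η ≤ 1 / 8) :
    Round G (v + 1001 * η) (20000 / η ^ 3) := by
  intro α β _ _ _ _ Ψ Θ Θ' M N hM hN hΘ hΘ'
  obtain ⟨J, hJ, hJ'⟩ : ∃ J : Finset ℤ, (∀ z i, lv η (sp (dil (Θ z)) i) ⊆ J) ∧
      ∀ z i, lv η (sp (dil (Θ' z)) i) ⊆ J :=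
    ⟨(univ.biUnion fun z => univ.biUnion fun i => lv η (sp (dil (Θ z)) i)) ∪
      univ.biUnion fun z => univ.biUnion fun i => lv η (sp (dil (Θ' z)) i),
      fun z i j hj => by simp only [mem_union, mem_biUnion, mem_univ, true_and]; exact .inl ⟨z, i, hj⟩,
      fun z i j hj => by simp only [mem_union, mem_biUnion, mem_univ, true_and]; exact .inr ⟨z, i, hj⟩⟩
  let sg : ℝ → ℝ := fun t => if 0 ≤ t then 1 else -1
  have s1 : ∀ t, sg t ^ 2 = 1 := fun t => by simp only [sg]; split_ifs <;> norm_num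
  have s2 : ∀ t, sg t * |t| = t := fun t => by
    simp only [sg]; split_ifs with c
    · rw [abs_of_nonneg c, one_mul]
    · rw [abs_of_neg (not_le.1 c)]; ring
  let E : Z → Matrix α ((α ⊕ β) × J) ℂ := fun z =>
    hc fun j : J => jA α β * fc (dil (Θ z)) fun t => sg t * ph η j t
  let F : Matrix α β ℂ → Matrix β ((α ⊕ β) × J) ℂ := fun K => hc fun j : J => jB α β * fc (dil K) (ph η j)
  let D := dg (α ⊕ β) fun j : J => lam η j
  have one : ∀ {t}, lv η t ⊆ J → ∑ j : J, ph η j t ^ 2 ≤ 1 := fun h => by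
    rw [sum_coe_sort J fun j => ph η j _ ^ 2, ph_sum h]; split_ifs <;> norm_num
  have hE : ∀ z, (1 - (E z)ᴴ * E z).PosSemidef := fun z =>
    lev_contr jA_iso _ fun i => by simpa only [mul_pow, s1, one_mul] using one (hJ z i)
  have s := h.sub D (isF_conj hM hE fun z w e => by simp only [E, hΘ z w e])
    (isF_conj (E := fun z => F (Θ' z)) hN (fun z => lev_contr jB_iso _ fun i => one (hJ' z i))
      fun z w e => by simp only [hΘ' z w e])
  have e1 : ∀ z, val G D (fun z a => (E z)ᴴ * M z a * E z) (fun z b => (F (Θ' z))ᴴ * N z b * F (Θ' z)) z =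
      val G (E z * D * (F (Θ' z))ᴴ) M N z := fun z => by
    simp only [val, ev_conj, conjTranspose_conjTranspose]
  have e2 : ∀ z, nq D - ev D (1 - (E z)ᴴ * E z) (1 - (F (Θ' z))ᴴ * F (Θ' z)) =
      nq (E z * D) + nq (F (Θ' z) * D) - nq (E z * D * (F (Θ' z))ᴴ) := fun z => by
    have a := ev_eq D (E z) (F (Θ' z))ᴴ
    have b := ev_eq D (E z) (1 : Matrix _ ((α ⊕ β) × J) ℂ)
    have c := ev_eq D (1 : Matrix ((α ⊕ β) × J) _ ℂ) (F (Θ' z))ᴴ
    simp only [conjTranspose_conjTranspose, conjTranspose_one, Matrix.mul_one, Matrix.one_mul] at a b c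
    rw [ev_sub_l, ev_sub_r, ev_sub_r, ev_one, a, b, c, ← nq_ct (D * _), conjTranspose_mul, dg_ct,
      conjTranspose_conjTranspose]
    ring
  have lv2 : ∀ {α' : Type} [Fintype α'] [DecidableEq α'] (I : Matrix α' (α ⊕ β) ℂ) (K : Matrix α β ℂ)
      (φ : J → ℝ → ℝ), (∀ i, lv η (sp (dil K) i) ⊆ J) → (∀ j t, φ j t ^ 2 = ph η j t ^ 2) →
      nq ((hc fun j => I * fc (dil K) (φ j)) * D) ≤ (1 + 5 * η) * nq (I * dil K) := fun I K φ a b => by
    rw [hc_dg, nq_hc, ← fc_id (dil_herm K), nq_fc, fc_id (dil_herm K), ← rt_smul, ← smul_mul_assoc, fc_smul]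
    simp only [← Matrix.mul_smul, fc_smul, nq_fc, ← rt_sum, ← sum_mul, fc_sum]
    refine rt_fc_mono _ (fun i => ?_) (posSemidef_conjTranspose_mul_self I)
    simpa only [mul_pow, b, ← sum_coe_sort J] using lev_sq h0 h1 (a i)
  have hF := fun z => val_le (z := z) D (isF_conj hM hE fun z w e => by simp only [E, hΘ z w e])
    (isF_conj (E := fun z => F (Θ' z)) hN (fun z => lev_contr jB_iso _ fun i => one (hJ' z i))
      fun z w e => by simp only [hΘ' z w e])
  simp only [e1, e2] at s hF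
  refine (round_sum (w := 1000 * η) (c := 20000 * (1 / η) ^ 3) h0.le hv s fun z => ?_).trans_eq (by ring)
  have t1 : nq (Θ z - E z * D * (F (Θ z))ᴴ) ≤ 8 * η ^ 2 * nq (Θ z) := by
    have a : E z * D * (F (Θ z))ᴴ = jA α β * fc (dil (Θ z))
        (fun t => ∑ j : J, lam η j * (sg t * ph η j t) * ph η j t) * (jB α β)ᴴ := by
      rw [hc_dg, hc_mul, ← fc_sum, Matrix.mul_sum, Matrix.sum_mul]
      refine sum_congr rfl fun j _ => ?_
      rw [← Matrix.mul_smul, fc_smul, conjTranspose_mul, fc_ct, ← Matrix.mul_assoc,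
        Matrix.mul_assoc (jA α β), fc_mul]
    have b := nq_dil (Θ z) 0
    rw [show dil (0 : Matrix α β ℂ) = 0 by simp [dil], sub_zero, sub_zero] at b
    nth_rewrite 1 [← dil_AB (Θ z), ← fc_id (dil_herm (Θ z))]
    rw [a, ← Matrix.sub_mul, ← Matrix.mul_sub, fc_sub, Matrix.mul_assoc]
    refine (nq_iso jA_iso _).trans ?_
    rw [← nq_ct, conjTranspose_mul, conjTranspose_conjTranspose]
    refine (nq_iso jB_iso _).trans ?_
    rw [show 8 * η ^ 2 * nq (Θ z) = (2 * η) ^ 2 * (2 * nq (Θ z)) by ring, ← b, fc_ct,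
      ← Matrix.one_mul (fc _ _), ← Matrix.one_mul (dil _), ← fc_id (dil_herm (Θ z)), nq_fc, nq_fc,
      fc_id (dil_herm (Θ z)), Matrix.one_mul (dil _), ← rt_smul, ← smul_mul_assoc, fc_smul]
    refine rt_fc_mono _ (fun i => ?_) (posSemidef_conjTranspose_mul_self _)
    have := pow_le_pow_left₀ (abs_nonneg _) (lev_id h0 h1 (hJ z i)) 2
    rw [sq_abs, mul_pow, sq_abs, ← sum_coe_sort J] at this
    refine le_trans (le_of_eq ?_) this
    generalize sp (dil (Θ z)) i = t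
    rw [← one_mul ((_ - |t|) ^ 2), ← s1 t, ← mul_pow, mul_sub, s2, mul_sum, ← neg_sq, neg_sub]
    congr 2; refine sum_congr rfl fun j _ => ?_; ring
  have t2 : nq (E z * D * (F (Θ z))ᴴ - E z * D * (F (Θ' z))ᴴ) ≤ 256 * (1 / η) ^ 2 * nq (Θ z - Θ' z) := by
    rw [← Matrix.mul_sub, Matrix.mul_assoc]
    refine (nq_mul_le (hE z) _).trans ?_
    rw [← conjTranspose_sub, ← nq_ct, conjTranspose_mul, dg_ct, conjTranspose_conjTranspose, hc_sub,
      hc_dg, nq_hc, show 256 * (1 / η) ^ 2 * nq (Θ z - Θ' z) = 128 / η ^ 2 * (2 * nq (Θ z - Θ' z)) by ring,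
      ← nq_dil, ← fc_id (dil_herm (Θ z)), ← fc_id (dil_herm (Θ' z)), nq_fc_sub, fc_id (dil_herm _),
      fc_id (dil_herm _)]
    refine (sum_le_sum fun j _ => ?_).trans (b := ∑ j : J, lam η j ^ 2 *
      nq (fc (dil (Θ z)) (ph η j) - fc (dil (Θ' z)) (ph η j))) ?_
    · rw [nq_smul, ← Matrix.mul_sub]
      exact mul_le_mul_of_nonneg_left (nq_iso jB_iso _) (sq_nonneg _)
    simp only [nq_fc_sub, mul_sum]
    rw [sum_comm]
    refine sum_le_sum fun a _ => ?_
    rw [sum_comm]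
    refine sum_le_sum fun b _ => ?_
    simp only [← mul_assoc, ← sum_mul]
    refine mul_le_mul_of_nonneg_right ?_ (sq_nonneg _)
    rw [sum_coe_sort J fun j => lam η j ^ 2 * (ph η j _ - ph η j _) ^ 2]
    exact lev_diff h0 h1 (hJ z a) (hJ' z b)
  have u1 := lv2 (jA α β) (Θ z) (fun j t => sg t * ph η j t) (hJ z) fun j t => by rw [mul_pow, s1, one_mul]
  have u2 := lv2 (jB α β) (Θ' z) (fun j => ph η j) (hJ' z) fun j t => rfl
  rw [nq_A] at u1
  rw [nq_B] at u2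
  have k4 := nq_add_le (Ψ z) (Θ z - Ψ z) h0
  have k5 := nq_add_le (Ψ z) (Θ' z - Ψ z) h0
  have k6 := nq_add_le (E z * D * (F (Θ' z))ᴴ) (Ψ z - E z * D * (F (Θ' z))ᴴ) h0
  have k9 := nq_add_le (Ψ z) (Θ z - Ψ z) one_pos
  rw [add_sub_cancel, nq_sub_comm] at k4 k5 k9
  rw [add_sub_cancel] at k6
  have k8 := nq_tri (Θ z) (Ψ z) (Θ' z)
  rw [nq_sub_comm (Θ z) (Ψ z)] at k8
  refine arith_two h0 h1 (one_div_mul_cancel h0.ne') (sq_nonneg _) (nq_nonneg _) (nq_nonneg _)
    (nq_nonneg _) (nq_nonneg _) (nq_nonneg _)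
    (val_add_le _ _ hM hN z h0) (fun c => le_div_add (val_nonneg _ (hM.psd z) (hN.psd z)) (hF z))
    (sub_le_sub_right (add_le_add u1 u2) _) k4 k5 k6 (nq_le_fn _ h0) ?_
    (by linarith [nq_le_fn (Ψ z) one_pos])
  have := mul_le_mul_of_nonneg_left k8 (by positivity : 0 ≤ (1 / η) ^ 2)
  linarith [nq_tri (Ψ z) (Θ z) (E z * D * (F (Θ' z))ᴴ),
    nq_tri (Θ z) (E z * D * (F (Θ z))ᴴ) (E z * D * (F (Θ' z))ᴴ)]

end

end Crest.Agent.H0536
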