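import Crest.Agent.H0536.Core
import Crest.Agent.H0536.Rnd

set_option autoImplicit false
set_option linter.unusedSectionVars false
open Finset Matrix Function
open scoped ComplexOrder Nat

namespace Crest.Agent.H0536

noncomputable section
open Classical

variable {ι Z X Y A B : Type} [Fintype ι] [DecidableEq ι] [Fintype Z] [Fintype A] [Fintype B]
variable {α β : Type} [Fintype α] [DecidableEq α] [Fintype β] [DecidableEq β]
variable {G : Gm Z X Y A B} {K : Matrix α β ℂ} {M : (ι → Z) → (ι → A) → Matrix α α ℂ}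
  {N : (ι → Z) → (ι → B) → Matrix β β ℂ}

lemma Ex_sum {J : Type*} (s : Finset J) (f : J → (ι → Z) → (ι → A) → (ι → B) → ℝ) :
    Ex G K M N (fun w a b => ∑ j ∈ s, f j w a b) = ∑ j ∈ s, Ex G K M N (f j) := by
  simp only [Ex, sum_mul, mul_sum]
  rw [sum_comm (s := s)]
  refine sum_congr rfl fun w _ => ?_
  rw [sum_comm (s := s)]
  exact sum_congr rfl fun a _ => sum_comm

lemma Ex_lin (x y : ℝ) (f f' : (ι → Z) → (ι → A) → (ι → B) → ℝ) :
    Ex G K M N (fun w a b => x * f w a b + y * f' w a b) = x * Ex G K M N f + y * Ex G K M N f' := by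
  simp only [Ex, mul_sum, ← sum_add_distrib]
  exact sum_congr rfl fun w _ => sum_congr rfl fun a _ => sum_congr rfl fun b _ => by ring

/-- the soft conditioning weight -/
def gw (G : Gm Z X Y A B) (C : Finset ι) (w : ι → Z) (a : ι → A) (b : ι → B) : ℝ :=
  ∏ l ∈ C, if G.acc (w l) (a l) (b l) then 1 else 1 / 2

theorem main [Nonempty A] [Nonempty B] [Nonempty ι] (hK : nq K = 1) (hM : Pl G.px M) (hN : Pl G.py N)
    {v δ c : ℝ} (v0 : 0 ≤ v) (d0 : 0 < δ) (d1 : v + δ ≤ 1) (c1 : 1 ≤ c) (hR : Round G (v + δ / 4) c) :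
    Ex G K M N (fun w a b => if (v + δ) * Fintype.card ι ≤ #{l | G.acc (w l) (a l) (b l)} then 1 else 0) ≤
      Real.exp (-(δ ^ 2 / (256 * c * (1 + Real.log (Fintype.card A * Fintype.card B : ℕ))) *
        Fintype.card ι)) := by
  set T : (ι → Z) → (ι → A) → (ι → B) → ℝ := fun w a b =>
    if (v + δ) * Fintype.card ι ≤ #{l | G.acc (w l) (a l) (b l)} then 1 else 0 with hT
  have T0 : ∀ w a b, 0 ≤ T w a b ∧ T w a b ≤ 1 := fun w a b => by
    simp only [hT]; split_ifs <;> norm_num
  set L := Real.log (Fintype.card A * Fintype.card B : ℕ) with hL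
  have lA := Real.log_natCast_nonneg (Fintype.card A)
  have lB := Real.log_natCast_nonneg (Fintype.card B)
  have hL' : L = Real.log (Fintype.card A) + Real.log (Fintype.card B) := by
    rw [hL, Nat.cast_mul, Real.log_mul] <;> simp
  have L0 : 0 ≤ L := by linarith
  set k : ℝ := (Fintype.card ι : ℝ) with hk
  have k0 : 0 < k := by simp [hk, Fintype.card_pos]
  have g1 : ∀ {J : Type} (C : Finset J) (p : J → Prop) [DecidablePred p],
      (1 / 2 : ℝ) ^ #C ≤ ∏ l ∈ C, (if p l then 1 else 1 / 2 : ℝ) ∧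
      ∏ l ∈ C, (if p l then 1 else 1 / 2 : ℝ) ≤ 1 := fun C p _ =>
    ⟨(prod_const _).symm.trans_le (prod_le_prod (fun _ _ => by norm_num) fun _ _ => by split_ifs <;> norm_num),
      prod_le_one (fun _ _ => by split_ifs <;> norm_num) fun _ _ => by split_ifs <;> norm_num⟩
  have g0 : ∀ (C : Finset ι) w a b, 0 < gw G C w a b := fun C w a b => lt_of_lt_of_le (by positivity) (g1 C _).1
  have p0 : ∀ C, 0 < Ex G K M N (gw G C) := fun C => lt_of_lt_of_le (by positivity)
    ((Ex_const hK hM hN _).ge.trans (Ex_mono hM hN fun w a b => (g1 C _).1))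
  have q0 : ∀ C, 0 ≤ Ex G K M N fun w a b => gw G C w a b * T w a b := fun C =>
    (Ex_const hK hM hN 0).ge.trans (Ex_mono hM hN fun w a b => mul_nonneg (g0 _ _ _ _).le (T0 _ _ _).1)
  have step : ∀ C : Finset ι, 16 * c * (1 + L) * #C < δ * k → ∃ i ∉ C,
      (1 + δ / 8) * Ex G K M N (fun w a b => gw G C w a b * T w a b) * Ex G K M N (gw G (insert i C)) ≤
      Ex G K M N (fun w a b => gw G (insert i C) w a b * T w a b) * Ex G K M N (gw G C) := fun C hC => by
    have j0 : (0 : ℝ) ≤ #C := by positivity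
    have j1 : 16 * (#C : ℝ) ≤ 16 * c * (1 + L) * #C := by
      nlinarith [mul_nonneg (mul_nonneg (zero_le_one.trans c1) L0) j0]
    have hm : (#Cᶜ : ℝ) = k - #C := by
      rw [eq_sub_iff_add_eq, hk]; exact_mod_cast card_compl_add_card C
    have m0 : (0 : ℝ) < #Cᶜ := by nlinarith
    have h := core hK hM hN (I := C → A) (I' := C → B) (fun a l => a l) (fun a l => a l)
      (fun w s t => ∏ l : C, if G.acc (w l) (s l) (t l) then 1 else 1 / 2) (g0 := (1 / 2) ^ #C)
      (by positivity) (fun w s t => by simpa using (g1 (univ : Finset C) _).1) (fun w s t => (g1 _ _).2) Cᶜ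
      (fun i hi w z => by
        ext s t
        exact prod_congr rfl fun l _ => by rw [update_of_ne (ne_of_mem_of_not_mem l.2 (mem_compl.1 hi))])
      (zero_le_one.trans c1) hR
    have e : ∀ (w : ι → Z) (a : ι → A) (b : ι → B),
        ∏ l : C, (if G.acc (w l) (a l) (b l) then 1 else 1 / 2 : ℝ) = gw G C w a b := fun w a b =>
      prod_coe_sort C fun l => if G.acc (w l) (a l) (b l) then 1 else 1 / 2
    simp only [e] at h
    simp only [Fintype.card_fun, Fintype.card_coe, Nat.cast_pow, Real.log_pow, one_div, Real.log_inv] at h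
    have e1 : ∀ i ∈ Cᶜ, ∀ w a b, gw G (insert i C) w a b = 1 / 2 * gw G C w a b +
        1 / 2 * (gw G C w a b * if G.acc (w i) (a i) (b i) then 1 else 0) := fun i hi w a b => by
      rw [gw, prod_insert (mem_compl.1 hi), gw]
      split_ifs <;> ring
    have h1 : ∑ i ∈ Cᶜ, Ex G K M N (gw G (insert i C)) = 1 / 2 * (#Cᶜ * Ex G K M N (gw G C)) +
        1 / 2 * ∑ i ∈ Cᶜ, Ex G K M N fun w a b => gw G C w a b * if G.acc (w i) (a i) (b i) then 1 else 0 := by
      rw [← nsmul_eq_mul, ← sum_const, mul_sum, mul_sum, ← sum_add_distrib]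
      refine sum_congr rfl fun i hi => ?_
      rw [← Ex_lin]
      congr 1
      ext w a b
      exact e1 i hi w a b
    have h2 : 1 / 2 * (#Cᶜ + (v + δ) * k - #C) * Ex G K M N (fun w a b => gw G C w a b * T w a b) ≤
        ∑ i ∈ Cᶜ, Ex G K M N fun w a b => gw G (insert i C) w a b * T w a b := by
      rw [← Ex_sum, ← add_zero (_ * Ex _ _ _ _ _), ← zero_mul (Ex G K M N T), ← Ex_lin]
      refine Ex_mono hM hN fun w a b => ?_
      rw [← sum_mul, sum_congr rfl fun i hi => e1 i hi w a b, sum_add_distrib, ← mul_sum, ← mul_sum, ← mul_sum,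
        sum_const, nsmul_eq_mul, sum_boole]
      simp only [hT]
      split_ifs with h
      · have : (#{l | G.acc (w l) (a l) (b l)} : ℝ) ≤ #{l ∈ Cᶜ | G.acc (w l) (a l) (b l)} + #C := by
          exact_mod_cast (card_le_card fun l hl => by
            by_cases c : l ∈ C <;> simp_all).trans (card_union_le _ _)
        nlinarith [g0 C w a b]
      · simp
    obtain ⟨i, hi, h3⟩ := exists_le_of_sum_le (card_pos.1 (by exact_mod_cast m0 : 0 < #Cᶜ)) (f := fun i =>
      (1 + δ / 8) * Ex G K M N (fun w a b => gw G C w a b * T w a b) * Ex G K M N (gw G (insert i C)))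
      (g := fun i => Ex G K M N (fun w a b => gw G (insert i C) w a b * T w a b) * Ex G K M N (gw G C)) (by
        rw [← mul_sum, ← sum_mul, h1]
        refine le_trans ?_ (mul_le_mul_of_nonneg_right h2 (p0 C).le)
        have l2 := Real.log_two_lt_d9
        have a1 : c * (5 * -(#C * -Real.log 2) + 2 * (#C * Real.log (Fintype.card A) +
            #C * Real.log (Fintype.card B))) ≤ δ * k / 4 := by
          rw [← mul_add (#C : ℝ), ← hL']
          nlinarith [mul_nonneg (zero_le_one.trans c1) j0, mul_nonneg (mul_nonneg (zero_le_one.trans c1) j0) L0]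
        have a2 := h.trans (mul_le_mul_of_nonneg_left (add_le_add_right a1 _) (p0 C).le)
        have a3 : (1 + δ / 8) * (#Cᶜ + (#Cᶜ * (v + δ / 4) + δ * k / 4)) ≤ #Cᶜ + (v + δ) * k - #C := by
          have : #Cᶜ + (#Cᶜ * (v + δ / 4) + δ * k / 4) ≤ 2 * k := by nlinarith
          nlinarith [mul_nonneg j0 v0, mul_nonneg j0 d0.le]
        nlinarith [mul_le_mul_of_nonneg_left a3 (mul_nonneg (p0 C).le (q0 C)),
          mul_le_mul_of_nonneg_left a2 (mul_nonneg (by positivity : 0 ≤ 1 + δ / 8) (q0 C))])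
    exact ⟨i, mem_compl.1 hi, h3⟩
  have c0 : 0 < 16 * c * (1 + L) := by positivity
  have ind : ∀ j : ℕ, j ≤ ⌈δ * k / (16 * c * (1 + L))⌉₊ → ∃ C : Finset ι, #C = j ∧
      (1 + δ / 8) ^ j * Ex G K M N T * Ex G K M N (gw G C) ≤
        Ex G K M N fun w a b => gw G C w a b * T w a b := fun j hj => by
    induction j with
    | zero => exact ⟨∅, rfl, by simp only [show gw G (∅ : Finset ι) = fun _ _ _ => 1 from rfl,
        Ex_const hK hM hN, pow_zero, one_mul, mul_one, le_refl]⟩
    | succ j ih =>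
      obtain ⟨C, rfl, h⟩ := ih (by omega)
      obtain ⟨i, hi, h'⟩ := step C (by
        have := Nat.lt_ceil.1 (Nat.lt_of_succ_le hj)
        rwa [lt_div_iff₀' c0] at this)
      refine ⟨_, card_insert_of_notMem hi, le_of_mul_le_mul_right (le_trans ?_ h') (p0 C)⟩
      have := mul_le_mul_of_nonneg_left h (mul_nonneg (by positivity : 0 ≤ 1 + δ / 8) (p0 (insert i C)).le)
      rw [pow_succ]
      linarith
  obtain ⟨C, -, h⟩ := ind _ le_rfl
  have h1 := le_of_mul_le_mul_right (h.trans ((Ex_mono hM hN fun w a b =>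
    mul_le_of_le_one_right (g0 _ _ _ _).le (T0 _ _ _).2).trans_eq (one_mul _).symm)) (p0 C)
  have h2 : 1 ≤ Real.exp (-(δ / 16)) * (1 + δ / 8) := by nlinarith [Real.add_one_le_exp (-(δ / 16))]
  have h3 := one_le_pow₀ (n := ⌈δ * k / (16 * c * (1 + L))⌉₊) h2
  rw [mul_pow, ← Real.exp_nat_mul] at h3
  have q : 0 ≤ Ex G K M N T := (Ex_const hK hM hN 0).ge.trans (Ex_mono hM hN fun w a b => (T0 _ _ _).1)
  refine le_trans ?_ (Real.exp_le_exp.2 (show ⌈δ * k / (16 * c * (1 + L))⌉₊ * -(δ / 16) ≤ _ from ?_))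
  · nlinarith [mul_le_mul_of_nonneg_left h3 q, Real.exp_pos (⌈δ * k / (16 * c * (1 + L))⌉₊ * -(δ / 16))]
  · have := mul_le_mul_of_nonneg_right (Nat.le_ceil (δ * k / (16 * c * (1 + L)))) d0.le
    have e : δ ^ 2 / (256 * c * (1 + L)) * k = δ * k / (16 * c * (1 + L)) * δ / 16 := by
      field_simp; norm_num
    linarith

end

end Crest.Agent.H0536
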