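import Mathlib

set_option autoImplicit false
set_option linter.unusedSectionVars false
open Finset Matrix
open scoped ComplexOrder MatrixOrder

namespace Crest.Agent.H0536

noncomputable section

variable {l m n : Type} [Fintype l] [Fintype m] [Fintype n]

/-- real part of the trace -/
def rt (A : Matrix n n ℂ) : ℝ := A.trace.re

lemma rt_add (A B : Matrix n n ℂ) : rt (A + B) = rt A + rt B := by simp [rt]
lemma rt_sub (A B : Matrix n n ℂ) : rt (A - B) = rt A - rt B := by simp [rt]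
lemma rt_zero : rt (0 : Matrix n n ℂ) = 0 := by simp [rt]
lemma rt_smul (c : ℝ) (A : Matrix n n ℂ) : rt (c • A) = c * rt A := by simp [rt]
lemma rt_sum {ι : Type*} (s : Finset ι) (A : ι → Matrix n n ℂ) :
    rt (∑ i ∈ s, A i) = ∑ i ∈ s, rt (A i) := by simp [rt, trace_sum]
lemma rt_comm (A : Matrix m n ℂ) (B : Matrix n m ℂ) : rt (A * B) = rt (B * A) := by
  rw [rt, rt, trace_mul_comm]
lemma rt_ct (A : Matrix n n ℂ) : rt Aᴴ = rt A := by simp [rt, trace_conjTranspose]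
lemma rt_nonneg {A : Matrix n n ℂ} (h : A.PosSemidef) : 0 ≤ rt A :=
  (Complex.nonneg_iff.1 h.trace_nonneg).1

lemma psd_fac {A : Matrix n n ℂ} (h : A.PosSemidef) : ∃ B : Matrix n n ℂ, A = Bᴴ * B := by
  classical
  exact CStarAlgebra.nonneg_iff_eq_star_mul_self.mp h.nonneg

lemma psd_mul {A B : Matrix n n ℂ} (h : A.PosSemidef) (h' : B.PosSemidef) : 0 ≤ (A * B).trace := by
  obtain ⟨C, rfl⟩ := psd_fac h'
  rw [← Matrix.mul_assoc, trace_mul_cycle]
  exact (h.mul_mul_conjTranspose_same C).trace_nonneg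

lemma rt_mul_nonneg {A B : Matrix n n ℂ} (h : A.PosSemidef) (h' : B.PosSemidef) : 0 ≤ rt (A * B) :=
  (Complex.nonneg_iff.1 (psd_mul h h')).1

lemma psd_smul {A : Matrix n n ℂ} (h : A.PosSemidef) {c : ℝ} (hc : 0 ≤ c) : (c • A).PosSemidef :=
  h.smul hc

def nq (K : Matrix m n ℂ) : ℝ := rt (Kᴴ * K)

def ev (K : Matrix m n ℂ) (M : Matrix m m ℂ) (N : Matrix n n ℂ) : ℝ := rt (Kᴴ * M * K * N)

lemma nq_eq (K : Matrix m n ℂ) : nq K = ∑ i, ∑ j, ‖K i j‖ ^ 2 := by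
  rw [sum_comm]
  simp [nq, rt, trace, mul_apply, Complex.sq_norm, Complex.normSq_apply]

lemma nq_nonneg (K : Matrix m n ℂ) : 0 ≤ nq K := by rw [nq_eq]; positivity

lemma nq_ct (K : Matrix m n ℂ) : nq Kᴴ = nq K := by rw [nq, conjTranspose_conjTranspose, rt_comm, nq]

lemma nq_smul (c : ℝ) (K : Matrix m n ℂ) : nq (c • K) = c ^ 2 * nq K := by
  simp [nq_eq, mul_sum, mul_pow]

lemma nq_neg (K : Matrix m n ℂ) : nq (-K) = nq K := by simp [nq]

lemma nq_sub_comm (K L : Matrix m n ℂ) : nq (K - L) = nq (L - K) := by rw [← nq_neg, neg_sub]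

lemma nq_eq_zero {K : Matrix m n ℂ} (h : nq K = 0) : K = 0 := by
  rw [nq_eq, sum_eq_zero_iff_of_nonneg fun _ _ => by positivity] at h
  ext i j
  simpa using (sum_eq_zero_iff_of_nonneg fun _ _ => by positivity).1 (h i (mem_univ _)) j (mem_univ _)

lemma sq_add_le (x y : ℝ) {η : ℝ} (h : 0 < η) : (x + y) ^ 2 ≤ (1 + η) * x ^ 2 + (1 + 1 / η) * y ^ 2 := by
  have : 0 ≤ (η * x - y) ^ 2 / η := by positivity
  rw [show (η * x - y) ^ 2 / η = η * x ^ 2 - 2 * x * y + 1 / η * y ^ 2 by field_simp; ring] at this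
  linarith

lemma nq_add_le (K L : Matrix m n ℂ) {η : ℝ} (h : 0 < η) :
    nq (K + L) ≤ (1 + η) * nq K + (1 + 1 / η) * nq L := by
  simp only [nq_eq, mul_sum, ← sum_add_distrib]
  exact sum_le_sum fun i _ => sum_le_sum fun j _ =>
    (pow_le_pow_left₀ (norm_nonneg _) (norm_add_le _ _) 2).trans (sq_add_le _ _ h)

lemma nq_tri (K L P : Matrix m n ℂ) : nq (K - P) ≤ 2 * nq (K - L) + 2 * nq (L - P) := by
  have := nq_add_le (K - L) (L - P) one_pos
  rw [sub_add_sub_cancel] at this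
  linarith

def fn (K : Matrix m n ℂ) : ℝ := √(nq K)

lemma fn_sq (K : Matrix m n ℂ) : fn K ^ 2 = nq K := Real.sq_sqrt (nq_nonneg K)

lemma fn_nonneg (K : Matrix m n ℂ) : 0 ≤ fn K := Real.sqrt_nonneg _

lemma fn_tri (K L P : Matrix m n ℂ) : fn (K - P) ≤ fn (K - L) + fn (L - P) := by
  have e : ∀ K : Matrix m n ℂ, fn K = ‖(WithLp.toLp 2 fun p : m × n => K p.1 p.2 : EuclideanSpace ℂ _)‖ :=
    fun K => by rw [EuclideanSpace.norm_eq, fn, nq_eq, Fintype.sum_prod_type]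
  rw [e, e, e]
  refine le_trans (le_of_eq ?_) (norm_add_le _ _)
  congr 1; ext p; simp

lemma ev_eq (K : Matrix m n ℂ) (a : Matrix l m ℂ) {k : Type} [Fintype k] (b : Matrix n k ℂ) :
    ev K (aᴴ * a) (b * bᴴ) = nq (a * K * b) := by
  rw [ev, nq, ← Matrix.mul_assoc, rt_comm]
  simp only [conjTranspose_mul, Matrix.mul_assoc]

lemma ev_nonneg (K : Matrix m n ℂ) {M : Matrix m m ℂ} {N : Matrix n n ℂ} (h : M.PosSemidef)
    (h' : N.PosSemidef) : 0 ≤ ev K M N := rt_mul_nonneg (h.conjTranspose_mul_mul_same K) h'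

lemma ev_add_le (K L : Matrix m n ℂ) {M : Matrix m m ℂ} {N : Matrix n n ℂ} (h : M.PosSemidef)
    (h' : N.PosSemidef) {η : ℝ} (hη : 0 < η) :
    ev (K + L) M N ≤ (1 + η) * ev K M N + (1 + 1 / η) * ev L M N := by
  obtain ⟨a, rfl⟩ := psd_fac h
  obtain ⟨b, rfl⟩ := psd_fac h'
  have e := fun K : Matrix m n ℂ => ev_eq K a bᴴ
  simp only [conjTranspose_conjTranspose] at e
  rw [e, e, e, Matrix.mul_add, Matrix.add_mul]
  exact nq_add_le _ _ hη

lemma ev_ct (K : Matrix m n ℂ) (M : Matrix m m ℂ) (N : Matrix n n ℂ) : ev Kᴴ N M = ev K M N := by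
  rw [ev, ev, conjTranspose_conjTranspose, Matrix.mul_assoc (K * N), rt_comm]
  simp only [Matrix.mul_assoc]

lemma ev_left (K : Matrix m n ℂ) (M : Matrix m m ℂ) (N : Matrix n n ℂ) :
    ev K M N = rt (M * (K * N * Kᴴ)) := by
  rw [ev, Matrix.mul_assoc, Matrix.mul_assoc, rt_comm]
  simp only [Matrix.mul_assoc]

lemma ev_add_l (K : Matrix m n ℂ) (M M' : Matrix m m ℂ) (N : Matrix n n ℂ) :
    ev K (M + M') N = ev K M N + ev K M' N := by simp only [ev_left, add_mul, rt_add]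
lemma ev_add_r (K : Matrix m n ℂ) (M : Matrix m m ℂ) (N N' : Matrix n n ℂ) :
    ev K M (N + N') = ev K M N + ev K M N' := by simp only [ev, mul_add, rt_add]
lemma ev_sub_l (K : Matrix m n ℂ) (M M' : Matrix m m ℂ) (N : Matrix n n ℂ) :
    ev K (M - M') N = ev K M N - ev K M' N := by simp only [ev_left, sub_mul, rt_sub]
lemma ev_sub_r (K : Matrix m n ℂ) (M : Matrix m m ℂ) (N N' : Matrix n n ℂ) :
    ev K M (N - N') = ev K M N - ev K M N' := by simp only [ev, mul_sub, rt_sub]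
lemma ev_sum_l {ι : Type*} (s : Finset ι) (K : Matrix m n ℂ) (M : ι → Matrix m m ℂ) (N : Matrix n n ℂ) :
    ev K (∑ i ∈ s, M i) N = ∑ i ∈ s, ev K (M i) N := by simp only [ev_left, sum_mul, rt_sum]
lemma ev_sum_r {ι : Type*} (s : Finset ι) (K : Matrix m n ℂ) (M : Matrix m m ℂ) (N : ι → Matrix n n ℂ) :
    ev K M (∑ i ∈ s, N i) = ∑ i ∈ s, ev K M (N i) := by simp only [ev, mul_sum, rt_sum]
lemma ev_smul_l (c : ℝ) (K : Matrix m n ℂ) (M : Matrix m m ℂ) (N : Matrix n n ℂ) :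
    ev K (c • M) N = c * ev K M N := by simp only [ev_left, smul_mul_assoc, rt_smul]
lemma ev_smul_r (c : ℝ) (K : Matrix m n ℂ) (M : Matrix m m ℂ) (N : Matrix n n ℂ) :
    ev K M (c • N) = c * ev K M N := by simp only [ev, mul_smul_comm, rt_smul]
lemma ev_smul (c : ℝ) (K : Matrix m n ℂ) (M : Matrix m m ℂ) (N : Matrix n n ℂ) :
    ev (c • K) M N = c ^ 2 * ev K M N := by
  simp only [ev, conjTranspose_smul, star_trivial, Matrix.smul_mul, Matrix.mul_smul, rt_smul]; ring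
lemma ev_zero_l (K : Matrix m n ℂ) (N : Matrix n n ℂ) : ev K 0 N = 0 := by simp [ev, rt]
lemma ev_zero_r (K : Matrix m n ℂ) (M : Matrix m m ℂ) : ev K M 0 = 0 := by simp [ev, rt]

lemma ev_conj {k : Type} [Fintype k] (K : Matrix m n ℂ) (E : Matrix l m ℂ) (F : Matrix n k ℂ)
    (M : Matrix l l ℂ) (N : Matrix k k ℂ) :
    ev (E * K * F) M N = ev K (Eᴴ * M * E) (F * N * Fᴴ) := by
  rw [ev, ev, conjTranspose_mul, Matrix.mul_assoc, Matrix.mul_assoc, Matrix.mul_assoc, rt_comm]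
  simp only [conjTranspose_mul, Matrix.mul_assoc]

variable [DecidableEq m] [DecidableEq n]

lemma ev_one (K : Matrix m n ℂ) : ev K 1 1 = nq K := by simp [ev, nq]

lemma psd_swap {E : Matrix m n ℂ} (h : (1 - E * Eᴴ).PosSemidef) : (1 - Eᴴ * E).PosSemidef := by
  have := (posSemidef_conjTranspose_mul_self (1 - Eᴴ * E)).add (h.conjTranspose_mul_mul_same E)
  convert this using 1
  simp [Matrix.mul_sub, Matrix.sub_mul, Matrix.mul_assoc]

lemma nq_mul_le {E : Matrix l m ℂ} (h : (1 - Eᴴ * E).PosSemidef) (K : Matrix m n ℂ) :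
    nq (E * K) ≤ nq K := by
  have := ev_nonneg K h (PosSemidef.one (n := n))
  have e := ev_eq K E (1 : Matrix n n ℂ)
  simp only [conjTranspose_one, Matrix.mul_one] at e
  rw [ev_sub_l, ev_one, e] at this
  linarith

/-! ### functional calculus -/

def sU (A : Matrix n n ℂ) : Matrix n n ℂ := by
  classical exact if h : A.IsHermitian then h.eigenvectorUnitary else 1

def sp (A : Matrix n n ℂ) : n → ℝ := by
  classical exact if h : A.IsHermitian then h.eigenvalues else 0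

def fc (A : Matrix n n ℂ) (φ : ℝ → ℝ) : Matrix n n ℂ :=
  sU A * diagonal (fun i => (φ (sp A i) : ℂ)) * (sU A)ᴴ

lemma sU_l (A : Matrix n n ℂ) : (sU A)ᴴ * sU A = 1 := by
  unfold sU; split_ifs with h
  · exact Unitary.coe_star_mul_self h.eigenvectorUnitary
  · simp

lemma sU_r (A : Matrix n n ℂ) : sU A * (sU A)ᴴ = 1 := mul_eq_one_comm.1 (sU_l A)

variable (A : Matrix n n ℂ) (φ ψ : ℝ → ℝ)

lemma fc_id {A : Matrix n n ℂ} (h : A.IsHermitian) : fc A (fun p => p) = A := by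
  conv_rhs => rw [h.spectral_theorem]
  simp only [fc, sU, sp, dif_pos h]
  rfl

lemma fc_mul : fc A φ * fc A ψ = fc A fun p => φ p * ψ p := by
  simp only [fc, Matrix.mul_assoc]
  rw [← Matrix.mul_assoc (sU A)ᴴ, sU_l, Matrix.one_mul, ← Matrix.mul_assoc (diagonal _),
    diagonal_mul_diagonal]
  simp

lemma fc_add : fc A φ + fc A ψ = fc A fun p => φ p + ψ p := by
  simp only [fc, ← add_mul, ← mul_add, diagonal_add]; simp

lemma fc_sub : fc A φ - fc A ψ = fc A fun p => φ p - ψ p := by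
  simp only [fc, ← sub_mul, ← mul_sub, diagonal_sub]; simp

lemma fc_smul (c : ℝ) : c • fc A φ = fc A fun p => c * φ p := by
  rw [fc, fc, ← smul_mul_assoc, ← mul_smul_comm, ← diagonal_smul]
  congr 3; ext; simp

lemma fc_one : fc A (fun _ => 1) = 1 := by simp [fc, sU_r]

lemma fc_ct : (fc A φ)ᴴ = fc A φ := by
  simp [fc, Matrix.mul_assoc, diagonal_conjTranspose, Pi.star_def]

lemma fc_congr {A : Matrix n n ℂ} {φ ψ : ℝ → ℝ} (h : ∀ i, φ (sp A i) = ψ (sp A i)) :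
    fc A φ = fc A ψ := by simp only [fc, h]

lemma fc_sum {ι : Type*} (s : Finset ι) (φ : ι → ℝ → ℝ) :
    ∑ j ∈ s, fc A (φ j) = fc A fun p => ∑ j ∈ s, φ j p := by
  classical
  induction s using Finset.induction_on with
  | empty => simp [fc]
  | insert a s ha ih => simp only [sum_insert ha, ih, fc_add]

lemma fc_psd_iff : (fc A φ).PosSemidef ↔ ∀ i, 0 ≤ φ (sp A i) := by
  have e : (diagonal fun i => (φ (sp A i) : ℂ)).PosSemidef ↔ ∀ i, 0 ≤ φ (sp A i) := by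
    simp [posSemidef_diagonal_iff]
  refine ⟨fun h => e.1 ?_, fun h => (e.2 h).mul_mul_conjTranspose_same _⟩
  have := h.conjTranspose_mul_mul_same (sU A)
  simpa only [fc, ← Matrix.mul_assoc, sU_l, Matrix.one_mul, Matrix.mul_assoc _ (sU A)ᴴ,
    Matrix.mul_one] using this

lemma sp_nonneg {A : Matrix n n ℂ} (h : A.PosSemidef) (i : n) : 0 ≤ sp A i :=
  (fc_psd_iff A fun p => p).1 (by rwa [fc_id h.1]) i

lemma sp_le_one {A : Matrix n n ℂ} (h : A.IsHermitian) (h' : (1 - A).PosSemidef) (i : n) :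
    sp A i ≤ 1 :=
  sub_nonneg.1 ((fc_psd_iff A fun p => 1 - p).1 (by rwa [← fc_sub, fc_id h, fc_one]) i)

lemma tr_fc (C : Matrix n n ℂ) :
    (fc A φ * C).trace = ∑ i, φ (sp A i) * ((sU A)ᴴ * C * sU A) i i := by
  rw [fc, Matrix.mul_assoc, Matrix.mul_assoc, trace_mul_comm, Matrix.mul_assoc]
  simp [trace, diagonal_mul]

def wt (A C : Matrix n n ℂ) (i : n) : ℝ := (((sU A)ᴴ * C * sU A) i i).re

lemma rt_fc (C : Matrix n n ℂ) : rt (fc A φ * C) = ∑ i, φ (sp A i) * wt A C i := by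
  simp [rt, tr_fc, wt]

lemma wt_nonneg {C : Matrix n n ℂ} (h : C.PosSemidef) (i : n) : 0 ≤ wt A C i :=
  (Complex.nonneg_iff.1 (h.conjTranspose_mul_mul_same (sU A)).diag_nonneg).1

lemma rt_fc_mono {φ ψ : ℝ → ℝ} (h : ∀ i, φ (sp A i) ≤ ψ (sp A i)) {C : Matrix n n ℂ}
    (hC : C.PosSemidef) : rt (fc A φ * C) ≤ rt (fc A ψ * C) := by
  rw [rt_fc, rt_fc]
  exact sum_le_sum fun i _ => mul_le_mul_of_nonneg_right (h i) (wt_nonneg A hC i)

lemma nq_fc_sub (B : Matrix n n ℂ) : nq (fc A φ - fc B ψ) =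
    ∑ a, ∑ b, (φ (sp A a) - ψ (sp B b)) ^ 2 * ‖((sU A)ᴴ * sU B) a b‖ ^ 2 := by
  have e := ev_eq (fc A φ - fc B ψ) (sU A)ᴴ (sU B)
  rw [conjTranspose_conjTranspose, sU_r, sU_r, ev_one] at e
  rw [e, nq_eq, Matrix.mul_sub, Matrix.sub_mul]
  simp only [fc, ← Matrix.mul_assoc, sU_l, Matrix.one_mul, Matrix.mul_assoc _ (sU B)ᴴ (sU B),
    Matrix.mul_one]
  refine sum_congr rfl fun a _ => sum_congr rfl fun b _ => ?_
  rw [Matrix.mul_assoc, Matrix.sub_apply, diagonal_mul, mul_diagonal, mul_comm _ (ψ _ : ℂ), ← sub_mul,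
    norm_mul, mul_pow, ← Complex.ofReal_sub, Complex.norm_real, Real.norm_eq_abs, sq_abs]

end

end Crest.Agent.H0536
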