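import Crest.Agent.H0536.Mat

set_option autoImplicit false
set_option linter.unusedSectionVars false
open Finset Matrix
open scoped ComplexOrder

namespace Crest.Agent.H0536

noncomputable section

variable {l m n : Type} [Fintype l] [Fintype m] [Fintype n]

lemma rt_ext {A B : Matrix n n ℂ} (h : ∀ C, rt (A * C) = rt (B * C)) : A = B := by
  refine sub_eq_zero.1 (nq_eq_zero ?_)
  rw [nq, rt_comm, sub_mul, rt_sub, h, sub_self]

lemma psd_of_rt {A : Matrix n n ℂ} (hA : A.IsHermitian) (h : ∀ C, C.PosSemidef → 0 ≤ rt (A * C)) :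
    A.PosSemidef := by
  classical
  have a := h _ ((fc_psd_iff A fun p => -min p 0).2 fun i => neg_nonneg.2 (min_le_right _ _))
  have b : fc A (fun p => min p 0) = 0 := nq_eq_zero (le_antisymm (by
    nth_rewrite 1 [← fc_id hA] at a
    rw [fc_mul, fc_congr (ψ := fun p => -1 * (min p 0 * min p 0)) fun i => by
      rcases le_total (sp A i) 0 with c | c <;> simp [c], ← fc_smul, rt_smul] at a
    rw [nq, fc_ct, fc_mul]
    linarith) (nq_nonneg _))
  rw [← fc_id hA, ← sub_zero (fc _ _), ← b, fc_sub, fc_psd_iff]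
  exact fun i => sub_nonneg.2 (min_le_left _ _)

def mi (F : ℝ → Matrix n n ℂ) : Matrix n n ℂ := of fun a b => ∫ u in (0 : ℝ)..1, F u a b

lemma rt_mi {F : ℝ → Matrix n n ℂ} (hF : Continuous F) (C : Matrix n n ℂ) :
    rt (mi F * C) = ∫ u in (0 : ℝ)..1, rt (F u * C) := by
  have c : ∀ a b, Continuous fun u => F u a b * C b a := fun a b => by fun_prop
  have := Complex.reCLM.intervalIntegral_comp_comm (μ := MeasureTheory.volume) (a := 0) (b := 1)
    (f := fun u => ∑ a, ∑ b, F u a b * C b a) (Continuous.intervalIntegrable (by fun_prop) _ _)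
  rw [intervalIntegral.integral_finsetSum fun a _ => Continuous.intervalIntegrable (by fun_prop) _ _,
    sum_congr rfl fun a _ => intervalIntegral.integral_finsetSum fun b _ =>
      (c a b).intervalIntegrable _ _] at this
  simp only [intervalIntegral.integral_mul_const] at this
  exact this.symm

lemma mi_psd {F : ℝ → Matrix n n ℂ} (hF : Continuous F) (h : ∀ u, (F u).PosSemidef) :
    (mi F).PosSemidef := by
  refine psd_of_rt (rt_ext fun C => ?_) fun C hC => ?_
  · rw [← rt_ct, conjTranspose_mul, conjTranspose_conjTranspose, rt_comm, rt_mi hF, rt_mi hF]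
    congr 1; ext u
    rw [← rt_ct, conjTranspose_mul, conjTranspose_conjTranspose, rt_comm, (h u).1.eq]
  · rw [rt_mi hF]
    exact intervalIntegral.integral_nonneg zero_le_one fun u _ => rt_mul_nonneg (h u) hC

def xu (u p : ℝ) : ℝ := p / (1 + max 0 (min u 1) * (p - 1))

lemma den_pos {u p : ℝ} (h0 : 0 ≤ u) (h1 : u ≤ 1) (hp : 0 < p) : 0 < 1 + u * (p - 1) := by
  rcases eq_or_lt_of_le h1 with rfl | h
  · linarith
  · nlinarith [mul_nonneg h0 hp.le]

lemma xu_eq {u : ℝ} (h0 : 0 ≤ u) (h1 : u ≤ 1) (p : ℝ) : xu u p = p / (1 + u * (p - 1)) := by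
  rw [xu, min_eq_left h1, max_eq_right h0]

lemma xu_cont {p : ℝ} (hp : 0 ≤ p) : Continuous fun u => xu u p := by
  rcases eq_or_lt_of_le hp with rfl | hp
  · simpa [xu] using continuous_const
  · exact continuous_const.div (by fun_prop) fun u =>
      (den_pos (le_max_left _ _) (max_le zero_le_one (min_le_right _ _)) hp).ne'

lemma int_sq {p : ℝ} (hp : 0 ≤ p) : ∫ u in (0 : ℝ)..1, xu u p * xu u p = p := by
  rcases eq_or_lt_of_le hp with rfl | hp'
  · simp [xu]
  rw [intervalIntegral.integral_eq_sub_of_hasDerivAt (f := fun u => p ^ 2 * u / (1 + u * (p - 1)))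
    (fun u hu => ?_) (((xu_cont hp).fun_mul (xu_cont hp)).intervalIntegrable _ _)]
  · simp only [one_mul, add_sub_cancel]; field_simp; simp
  rw [Set.uIcc_of_le zero_le_one] at hu
  have := (den_pos hu.1 hu.2 hp').ne'
  refine (((hasDerivAt_id u).const_mul (p ^ 2)).div
    (((hasDerivAt_id u).mul_const (p - 1)).const_add 1) this).congr_deriv ?_
  rw [xu_eq hu.1 hu.2]; simp only [id]; field_simp; ring

lemma int_log {p : ℝ} (hp : 0 ≤ p) : ∫ u in (0 : ℝ)..1, xu u p * (p - 1) = p * Real.log p := by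
  rcases eq_or_lt_of_le hp with rfl | hp'
  · simp [xu]
  rw [intervalIntegral.integral_eq_sub_of_hasDerivAt (f := fun u => p * Real.log (1 + u * (p - 1)))
    (fun u hu => ?_) (((xu_cont hp).fun_mul continuous_const).intervalIntegrable _ _)]
  · simp
  rw [Set.uIcc_of_le zero_le_one] at hu
  have := (den_pos hu.1 hu.2 hp').ne'
  refine (((((hasDerivAt_id u).mul_const (p - 1)).const_add 1).log this).const_mul p).congr_deriv ?_
  rw [xu_eq hu.1 hu.2]; simp only [id]; field_simp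

variable [DecidableEq n]

def Phi (A σ : Matrix n n ℂ) : ℝ := rt (fc A (fun p => p * Real.log p) * σ)

lemma rt_int (A C : Matrix n n ℂ) {φ : ℝ → ℝ → ℝ} {ψ : ℝ → ℝ}
    (hc : ∀ i, Continuous fun u => φ u (sp A i)) (h : ∀ i, ∫ u in (0 : ℝ)..1, φ u (sp A i) = ψ (sp A i)) :
    ∫ u in (0 : ℝ)..1, rt (fc A (φ u) * C) = rt (fc A ψ * C) := by
  simp only [rt_fc]
  rw [intervalIntegral.integral_finsetSum fun i _ => ((hc i).fun_mul continuous_const).intervalIntegrable _ _]
  simp only [intervalIntegral.integral_mul_const, h]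

lemma fc_cont (A : Matrix n n ℂ) {φ : ℝ → ℝ → ℝ} (hc : ∀ i, Continuous fun u => φ u (sp A i)) :
    Continuous fun u => fc A (φ u) :=
  (continuous_const.matrix_mul (Continuous.matrix_diagonal (by fun_prop))).matrix_mul continuous_const

lemma rt_cont {F : ℝ → Matrix n n ℂ} (h : Continuous F) : Continuous fun u => rt (F u) :=
  Complex.continuous_re.comp h.matrix_trace

lemma step_u {u : ℝ} (h0 : 0 < u) (h1 : u < 1) {A A' σ : Matrix n n ℂ} (hA : A.PosSemidef)
    (hA' : A'.PosSemidef) (hσ : σ.PosSemidef) :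
    rt ((fc A' (xu u) - fc A (xu u))ᴴ * (fc A' (xu u) - fc A (xu u)) * σ) ≤
      rt (fc A' (fun p => xu u p * (p - 1)) * σ) - rt (fc A (fun p => xu u p * (p - 1)) * σ) -
        rt ((A' - A) * (u⁻¹ • σ - ((1 - u) / u) • (fc A (fun p => (1 + u * (p - 1))⁻¹) * σ *
          fc A fun p => (1 + u * (p - 1))⁻¹))) := by
  have pos : ∀ {p : ℝ}, 0 ≤ p → 1 - u ≤ 1 + u * (p - 1) := fun hp => by nlinarith [mul_nonneg h0.le hp]
  have ne : ∀ {p : ℝ}, 0 ≤ p → 1 + u * (p - 1) ≠ 0 := fun hp => by linarith [pos hp]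
  have key : ∀ {B : Matrix n n ℂ}, B.PosSemidef → ∀ R, R = fc B (fun p => (1 + u * (p - 1))⁻¹) →
      u • (R * B) = 1 - (1 - u) • R ∧ u • (B * R) = 1 - (1 - u) • R ∧
      fc B (xu u) = u⁻¹ • (1 : Matrix n n ℂ) - ((1 - u) / u) • R ∧ fc B (fun p => xu u p * (p - 1)) =
        u⁻¹ • B - (u ^ 2)⁻¹ • (1 : Matrix n n ℂ) + ((1 - u) / u ^ 2) • R := fun {B} hB R hR => by
    have e := fc_id hB.1
    have := fun i => ne (sp_nonneg hB i)
    refine ⟨?_, ?_, ?_, ?_⟩
    · nth_rewrite 1 [← e]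
      rw [hR, ← fc_one B, fc_mul, fc_smul, fc_smul, fc_sub]
      exact fc_congr fun i => by have := this i; field_simp; ring
    · nth_rewrite 1 [← e]
      rw [hR, ← fc_one B, fc_mul, fc_smul, fc_smul, fc_sub]
      exact fc_congr fun i => by have := this i; field_simp; ring
    · rw [hR, ← fc_one B, fc_smul, fc_smul, fc_sub]
      exact fc_congr fun i => by have := this i; rw [xu_eq h0.le h1.le]; field_simp; ring
    · nth_rewrite 2 [← e]
      rw [hR, ← fc_one B, fc_smul, fc_smul, fc_smul, fc_sub, fc_add]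
      exact fc_congr fun i => by have := this i; rw [xu_eq h0.le h1.le]; field_simp; ring
  obtain ⟨R, hR⟩ : ∃ R, R = fc A fun p => (1 + u * (p - 1))⁻¹ := ⟨_, rfl⟩
  obtain ⟨R', hR'⟩ : ∃ R, R = fc A' fun p => (1 + u * (p - 1))⁻¹ := ⟨_, rfl⟩
  obtain ⟨a1, a2, a3, a4⟩ := key hA R hR
  obtain ⟨b1, b2, b3, b4⟩ := key hA' R' hR'
  have c1 : R' - R = (-u) • (R' * (A' - A) * R) := by
    rw [mul_sub, sub_mul, neg_smul, smul_sub, ← smul_mul_assoc, b1, mul_assoc, ← mul_smul_comm, a2]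
    simp [sub_mul, mul_sub]
  have c2 : R' - R = (-u) • (R * (A' - A) * R') := by
    rw [mul_sub, sub_mul, neg_smul, smul_sub, ← smul_mul_assoc u (R * A), a1, mul_assoc,
      ← mul_smul_comm, b2]
    simp [sub_mul, mul_sub]
  have hD : (A' - A)ᴴ = A' - A := (hA'.1.sub hA.1).eq
  have r : Rᴴ = R := hR ▸ fc_ct _ _
  have r' : R'ᴴ = R' := hR' ▸ fc_ct _ _
  have d1 : rt (R' * σ) - rt (R * σ) = -u * rt (R * (A' - A) * R' * σ) := by
    rw [← rt_sub, ← sub_mul, c2, smul_mul_assoc, rt_smul]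
  have d2 : rt (R * (A' - A) * R' * σ) - rt (R * (A' - A) * R * σ) =
      -u * rt (R * (A' - A) * (R' * (A' - A) * R) * σ) := by
    rw [← rt_sub, ← sub_mul, ← mul_sub, c1, mul_smul_comm, smul_mul_assoc, rt_smul]
  have d3 := rt_fc_mono A' (φ := fun p => (1 - u) * ((1 + u * (p - 1))⁻¹ * (1 + u * (p - 1))⁻¹))
    (ψ := fun p => (1 + u * (p - 1))⁻¹) (fun i => by
      have := pos (sp_nonneg hA' i)
      rw [← mul_assoc]
      exact mul_le_of_le_one_left (inv_nonneg.2 (by linarith)) (mul_inv_le_one_of_le₀ this (by linarith)))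
    (hσ.mul_mul_conjTranspose_same ((A' - A) * R))
  rw [← fc_smul, ← fc_mul, ← hR', smul_mul_assoc, rt_smul, conjTranspose_mul, hD, r] at d3
  have e1 : rt (R' * R' * ((A' - A) * R * σ * (R * (A' - A)))) =
      rt ((R' * (A' - A) * R)ᴴ * (R' * (A' - A) * R) * σ) := by
    simp only [conjTranspose_mul, hD, r, r', ← mul_assoc]
    rw [mul_assoc _ R (A' - A), rt_comm]; simp only [mul_assoc]
  have e2 : rt (R' * ((A' - A) * R * σ * (R * (A' - A)))) =
      rt (R * (A' - A) * (R' * (A' - A) * R) * σ) := by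
    simp only [← mul_assoc]
    rw [mul_assoc _ R (A' - A), rt_comm]; simp only [mul_assoc]
  have e3 : rt ((A' - A) * (R * σ * R)) = rt (R * (A' - A) * R * σ) := by
    rw [← mul_assoc, rt_comm]; simp only [mul_assoc]
  have e4 : fc A' (xu u) - fc A (xu u) = (1 - u) • (R' * (A' - A) * R) := by
    rw [a3, b3, sub_sub_sub_cancel_left, ← smul_sub, ← neg_sub R' R, c1, smul_neg, smul_smul,
      ← neg_smul]
    congr 1; field_simp
  rw [e4, a4, b4, ← hR, conjTranspose_smul, star_trivial, mul_sub (A' - A), mul_smul_comm,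
    mul_smul_comm (_ / _), rt_sub, sub_mul A']
  simp only [smul_mul_assoc, mul_smul_comm, add_mul, sub_mul (_ • _), rt_add, rt_sub, rt_smul]
  rw [e1, e2] at d3
  rw [e3]
  have u0 := h0.ne'
  have := mul_le_mul_of_nonneg_left d3 (sub_nonneg.2 h1.le)
  have f : (1 - u) / u ^ 2 * (rt (R' * σ) - rt (R * σ)) = -((1 - u) / u) * rt (R * (A' - A) * R * σ) +
      (1 - u) * rt (R * (A' - A) * (R' * (A' - A) * R) * σ) := by
    rw [d1, sub_eq_iff_eq_add.1 d2]; field_simp; ring
  linarith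

theorem exists_W (T : Finset (Matrix n n ℂ)) (hT : ∀ A ∈ T, A.PosSemidef) :
    ∃ W : Matrix n n ℂ → Matrix (T × n) n ℂ, (∀ A ∈ T, (W A)ᴴ * W A = A) ∧
      ∀ {J : Type} [Fintype J] (π : J → ℝ) (A' : J → Matrix n n ℂ) (A σ : Matrix n n ℂ),
        (∀ j, 0 ≤ π j) → ∑ j, π j = 1 → (∀ j, A' j ∈ T) → A ∈ T → A = ∑ j, π j • A' j →
        σ.PosSemidef → ∑ j, π j * rt ((W (A' j) - W A)ᴴ * (W (A' j) - W A) * σ) ≤
          ∑ j, π j * Phi (A' j) σ - Phi A σ := by
  classical
  have cx : ∀ A ∈ T, ∀ i, Continuous fun u => xu u (sp A i) := fun A h i => xu_cont (sp_nonneg (hT A h) i)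
  let Y : ℝ → Matrix n (T × n) ℂ := fun u => of fun a p => fc p.1.1 (xu u) a p.2
  have cY : Continuous Y := continuous_matrix fun a p => (fc_cont _ (cx _ p.1.2)).matrix_elem _ _
  have cY2 : Continuous fun u => (Y u)ᴴ * Y u := cY.matrix_conjTranspose.matrix_mul cY
  obtain ⟨B, hB⟩ := psd_fac (mi_psd cY2 fun u => posSemidef_conjTranspose_mul_self _)
  let e : Matrix n n ℂ → Matrix (T × n) n ℂ := fun A => of fun p j => if p.1.1 = A ∧ p.2 = j then 1 else 0
  have he : ∀ u, ∀ A ∈ T, Y u * e A = fc A (xu u) := fun u A h => by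
    ext a j
    rw [mul_apply, sum_eq_single (⟨A, h⟩, j)] <;> simp [Y, e]
    intro A' h' j' hh h1 h2
    exact (hh h1 h2).elim
  have key : ∀ (c : Matrix (T × n) n ℂ) σ, rt ((B * c)ᴴ * (B * c) * σ) =
      ∫ u in (0 : ℝ)..1, rt ((Y u * c)ᴴ * (Y u * c) * σ) := fun c σ => by
    have : ∀ {k : Type} [Fintype k] (Z : Matrix k (T × n) ℂ), rt ((Z * c)ᴴ * (Z * c) * σ) =
        rt (Zᴴ * Z * (c * σ * cᴴ)) := fun Z => by
      rw [conjTranspose_mul, Matrix.mul_assoc, Matrix.mul_assoc, rt_comm]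
      simp only [Matrix.mul_assoc]
    simp only [this]
    rw [← hB, rt_mi cY2]
  refine ⟨fun A => B * e A, fun A h => rt_ext fun C => ?_, fun π A' A σ p0 p1 h' h hA hσ => ?_⟩
  · simp only [key, he _ A h, fc_ct, fc_mul]
    rw [rt_int A C (fun i => (cx A h i).mul (cx A h i)) (ψ := fun p => p)
      fun i => int_sq (sp_nonneg (hT A h) i), fc_id (hT A h).1]
  have P : ∀ A ∈ T, Phi A σ = ∫ u in (0 : ℝ)..1, rt (fc A (fun p => xu u p * (p - 1)) * σ) :=
    fun A h => (rt_int A σ (fun i => (cx A h i).mul continuous_const)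
      fun i => int_log (sp_nonneg (hT A h) i)).symm
  have c1 : ∀ A ∈ T, Continuous fun u => rt (fc A (fun p => xu u p * (p - 1)) * σ) := fun A h =>
    rt_cont ((fc_cont _ fun i => (cx A h i).mul continuous_const).matrix_mul continuous_const)
  have c2 : ∀ j, Continuous fun u => π j *
      rt ((fc (A' j) (xu u) - fc A (xu u))ᴴ * (fc (A' j) (xu u) - fc A (xu u)) * σ) := fun j => by
    have := (fc_cont _ (cx _ (h' j))).sub (fc_cont _ (cx _ h))
    exact continuous_const.mul (rt_cont ((this.matrix_conjTranspose.matrix_mul this).matrix_mul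
      continuous_const))
  have c3 := fun j => (continuous_const (y := π j)).fun_mul (c1 _ (h' j))
  simp only [← Matrix.mul_sub, key]
  simp only [Matrix.mul_sub (Y _), he _ _ h, he _ _ (h' _), P _ h, P _ (h' _),
    ← intervalIntegral.integral_const_mul]
  rw [← intervalIntegral.integral_finsetSum fun j _ => (c2 j).intervalIntegrable _ _,
    ← intervalIntegral.integral_finsetSum fun j _ => (c3 j).intervalIntegrable _ _,
    ← intervalIntegral.integral_sub ((continuous_finsetSum _ fun j _ => c3 j).intervalIntegrable _ _)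
      ((c1 _ h).intervalIntegrable _ _)]
  refine intervalIntegral.integral_mono_on_of_le_Ioo zero_le_one
    ((continuous_finsetSum _ fun j _ => c2 j).intervalIntegrable _ _)
    (((continuous_finsetSum _ fun j _ => c3 j).sub (c1 _ h)).intervalIntegrable _ _) fun u hu => ?_
  refine (sum_le_sum fun j _ => mul_le_mul_of_nonneg_left
    (step_u hu.1 hu.2 (hT _ h) (hT _ (h' j)) hσ) (p0 j)).trans_eq ?_
  have z : ∑ j, π j • (A' j - A) = 0 := by
    simp only [smul_sub, sum_sub_distrib, ← sum_smul, p1, one_smul, ← hA, sub_self]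
  simp only [mul_sub (π _), sum_sub_distrib, ← sum_mul, p1, one_mul]
  simp only [← rt_smul, ← smul_mul_assoc (π _) (A' _ - A), ← rt_sum, ← sum_mul, z, zero_mul, rt_zero,
    sub_zero]

lemma Phi_le {A σ : Matrix n n ℂ} (hA : A.PosSemidef) (h1 : (1 - A).PosSemidef) (hσ : σ.PosSemidef) :
    Phi A σ ≤ 0 := by
  rw [Phi, rt_fc]
  exact sum_nonpos fun i _ => mul_nonpos_of_nonpos_of_nonneg (Real.mul_log_nonpos (sp_nonneg hA i)
    (sp_le_one hA.1 h1 i)) (wt_nonneg A hσ i)

lemma Phi_ge {A σ : Matrix n n ℂ} (hA : A.PosSemidef) (hσ : σ.PosSemidef) (c : ℝ) :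
    -Phi A σ ≤ (c - 1) * rt (A * σ) + Real.exp (-c) * rt σ := by
  have := rt_fc_mono A (φ := fun p => -1 * (p * Real.log p))
    (ψ := fun p => (c - 1) * p + Real.exp (-c) * 1)
    (fun i => by
      rcases eq_or_lt_of_le (sp_nonneg hA i) with h | h
      · rw [← h]; simp [Real.exp_nonneg]
      have := mul_le_mul_of_nonneg_left (Real.add_one_le_exp (-c - Real.log (sp A i))) h.le
      rw [Real.exp_sub, Real.exp_log h, mul_div_cancel₀ _ h.ne'] at this
      linarith) hσ
  rw [← fc_add, ← fc_smul, ← fc_smul, ← fc_smul, fc_one, fc_id hA.1] at this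
  simpa only [add_mul, rt_add, rt_smul, Phi, smul_mul_assoc, one_mul, neg_mul] using this

lemma exists_meas {ι : Type} [Fintype ι] [DecidableEq m] (W : Matrix m n ℂ) (A : ι → Matrix n n ℂ)
    (hA : ∀ a, (A a).PosSemidef) (h : Wᴴ * W = ∑ a, A a) : ∃ M : ι → Matrix m m ℂ,
      (∀ a, (M a).PosSemidef) ∧ (1 - ∑ a, M a).PosSemidef ∧ ∀ a, Wᴴ * M a * W = A a := by
  have hS : (Wᴴ * W).IsHermitian := isHermitian_conjTranspose_mul_self W
  obtain ⟨P, hP⟩ : ∃ P, P = fc (Wᴴ * W) fun p => p⁻¹ := ⟨_, rfl⟩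
  have p1 : Pᴴ = P := hP ▸ fc_ct _ _
  have p2 : P * (Wᴴ * W) * P = P := by
    nth_rewrite 1 [← fc_id hS]
    rw [hP, fc_mul, fc_mul]
    exact fc_congr fun i => by by_cases c : sp (Wᴴ * W) i = 0 <;> simp [c]
  have p3 : Wᴴ * W * (P * (Wᴴ * W)) = Wᴴ * W := by
    conv_lhs => rw [← fc_id hS, hP, fc_mul, fc_mul]
    conv_rhs => rw [← fc_id hS]
    exact fc_congr fun i => by by_cases c : sp (Wᴴ * W) i = 0 <;> simp [c]
  refine ⟨fun a => (W * P) * A a * (W * P)ᴴ, fun a => (hA a).mul_mul_conjTranspose_same _, ?_, fun a => ?_⟩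
  · have e : W * P * (Wᴴ * W) * (W * P)ᴴ = W * P * Wᴴ := by
      conv_rhs => rw [← p2]
      simp only [conjTranspose_mul, p1, Matrix.mul_assoc]
    rw [← Matrix.sum_mul, ← Matrix.mul_sum, ← h, e]
    convert posSemidef_conjTranspose_mul_self (1 - W * P * Wᴴ) using 1
    have : W * (P * (Wᴴ * (W * (P * Wᴴ)))) = W * (P * Wᴴ) := by
      conv_rhs => rw [← p2]
      simp only [Matrix.mul_assoc]
    simp [Matrix.mul_sub, Matrix.sub_mul, Matrix.mul_assoc, p1, this]
  · have z : ∑ a, rt ((1 - P * (Wᴴ * W))ᴴ * A a * (1 - P * (Wᴴ * W))) = 0 := by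
      rw [← rt_sum, ← sum_mul, ← mul_sum, ← h, mul_assoc, mul_sub (Wᴴ * W), p3, mul_one, sub_self,
        mul_zero, rt_zero]
    have := (sum_eq_zero_iff_of_nonneg fun a _ =>
      rt_nonneg ((hA a).conjTranspose_mul_mul_same _)).1 z a (mem_univ _)
    obtain ⟨B, hB⟩ := psd_fac (hA a)
    have q : B * (P * (Wᴴ * W)) = B := by
      have := nq_eq_zero (K := B * (1 - P * (Wᴴ * W))) (by
        rw [← this, hB, nq, conjTranspose_mul]; simp only [mul_assoc])
      rwa [mul_sub, mul_one, sub_eq_zero, eq_comm] at this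
    conv_rhs => rw [hB, ← q]
    simp only [hB, conjTranspose_mul, conjTranspose_conjTranspose, p1, Matrix.mul_assoc]

end

end Crest.Agent.H0536
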